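import Vale.Agent.P291.RG.H17.Mom

/-!
# P291, part B: point of least norm on `μ_ℂ = ν` and hyperkähler rotation (helper17)
-/

set_option autoImplicit false
set_option linter.unusedSectionVars false

namespace Vale.Agent.P291.RG

open Vale.Agent.P291.Q Matrix Finset H17

namespace H17

variable {D : QData}

/-! ### a point of least norm -/

theorem compact_mat (m n : ℕ) (ρ : ℝ) :
    IsCompact {M : Matrix (Fin m) (Fin n) ℂ | ∀ r s, ‖M r s‖ ≤ ρ} := by
  have h : IsCompact (Set.pi Set.univ fun _ : Fin m => Set.pi Set.univ fun _ : Fin n =>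
      Metric.closedBall (0 : ℂ) ρ) :=
    isCompact_univ_pi fun _ => isCompact_univ_pi fun _ => isCompact_closedBall _ _
  have e : {M : Matrix (Fin m) (Fin n) ℂ | ∀ r s, ‖M r s‖ ≤ ρ} =
      (Set.pi Set.univ fun _ : Fin m => Set.pi Set.univ fun _ : Fin n =>
      Metric.closedBall (0 : ℂ) ρ) := by
    ext M
    exact ⟨fun h r _ s _ => mem_closedBall_zero_iff.2 (h r s),
      fun h r s => mem_closedBall_zero_iff.1 (h r trivial s trivial)⟩
  rw [e]
  exact h

theorem compact_fam {α : Type} (m n : α → ℕ) (ρ : ℝ) :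
    IsCompact {M : ∀ a, Matrix (Fin (m a)) (Fin (n a)) ℂ | ∀ a r s, ‖M a r s‖ ≤ ρ} := by
  have h : IsCompact (Set.pi Set.univ fun a : α =>
      {M : Matrix (Fin (m a)) (Fin (n a)) ℂ | ∀ r s, ‖M r s‖ ≤ ρ}) :=
    isCompact_univ_pi fun _ => compact_mat _ _ _
  have e : {M : ∀ a, Matrix (Fin (m a)) (Fin (n a)) ℂ | ∀ a r s, ‖M a r s‖ ≤ ρ} =
      (Set.pi Set.univ fun a : α =>
      {M : Matrix (Fin (m a)) (Fin (n a)) ℂ | ∀ r s, ‖M r s‖ ≤ ρ}) := by
    ext M
    simp [Set.mem_pi]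
  rw [e]
  exact h

/-- the points as a product -/
abbrev Tp (D : QData) : Type :=
  ((a : D.A) → Matrix (Fin (D.v (D.tgt a))) (Fin (D.v (D.src a))) ℂ) ×
  ((a : D.A) → Matrix (Fin (D.v (D.src a))) (Fin (D.v (D.tgt a))) ℂ) ×
  ((k : D.I) → Matrix (Fin (D.w k)) (Fin (D.v k)) ℂ) ×
  ((k : D.I) → Matrix (Fin (D.v k)) (Fin (D.w k)) ℂ)

/-- the point of a tuple -/
def tp (t : Tp D) : Pt D := ⟨t.1, t.2.1, t.2.2.1, t.2.2.2⟩

theorem cont_nsq {X : Type*} [TopologicalSpace X] {m n : ℕ} {f : X → Matrix (Fin m) (Fin n) ℂ}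
    (hf : Continuous f) : Continuous fun t => nsq (f t) := by
  unfold nsq
  refine continuous_finsetSum _ fun i _ => continuous_finsetSum _ fun j _ => ?_
  exact Complex.continuous_normSq.comp (hf.matrix_elem i j)

theorem cont_s (a : D.A) : Continuous fun t : Tp D => t.1 a :=
  (continuous_apply a).comp continuous_fst

theorem cont_p (a : D.A) : Continuous fun t : Tp D => t.2.1 a :=
  (continuous_apply a).comp (continuous_fst.comp continuous_snd)

theorem cont_i (k : D.I) : Continuous fun t : Tp D => t.2.2.1 k :=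
  (continuous_apply k).comp (continuous_fst.comp (continuous_snd.comp continuous_snd))

theorem cont_j (k : D.I) : Continuous fun t : Tp D => t.2.2.2 k :=
  (continuous_apply k).comp (continuous_snd.comp (continuous_snd.comp continuous_snd))

theorem cont_nn : Continuous fun t : Tp D => nn (tp t) := by
  unfold nn tp
  refine (continuous_finsetSum _ fun a _ => ?_).add (continuous_finsetSum _ fun k _ => ?_)
  · exact (cont_nsq (cont_s a)).add (cont_nsq (cont_p a))
  · exact (cont_nsq (cont_j k)).add (cont_nsq (cont_i k))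

theorem cont_mom (ξ : Lg D) : Continuous fun t : Tp D => mom (tp t) ξ := by
  unfold mom tp
  refine (continuous_finsetSum _ fun a _ => ?_).add (continuous_finsetSum _ fun k _ => ?_)
  · exact ((cont_p a).matrix_mul ((continuous_const.matrix_mul (cont_s a)).sub
      ((cont_s a).matrix_mul continuous_const))).matrix_trace
  · exact ((cont_j k).matrix_mul ((cont_i k).matrix_mul continuous_const).neg).matrix_trace

theorem entry_le {x : Pt D} {R : ℝ} (h : nn x ≤ R) :
    (∀ a r s, ‖x.s a r s‖ ≤ √R) ∧ (∀ a r s, ‖x.p a r s‖ ≤ √R) ∧ (∀ k r s, ‖x.i k r s‖ ≤ √R) ∧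
      ∀ k r s, ‖x.j k r s‖ ≤ √R := by
  have key : ∀ z : ℂ, Complex.normSq z ≤ R → ‖z‖ ≤ √R := by
    intro z hz
    refine Real.le_sqrt_of_sq_le ?_
    rwa [← Complex.normSq_eq_norm_sq]
  have hA : ∀ a, nsq (x.s a) + nsq (x.p a) ≤ ∑ a, (nsq (x.s a) + nsq (x.p a)) := fun a =>
    single_le_sum (f := fun a => nsq (x.s a) + nsq (x.p a))
      (fun _ _ => add_nonneg (nsq_nonneg _) (nsq_nonneg _)) (mem_univ a)
  have hI : ∀ k, nsq (x.j k) + nsq (x.i k) ≤ ∑ k, (nsq (x.j k) + nsq (x.i k)) := fun k =>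
    single_le_sum (f := fun k => nsq (x.j k) + nsq (x.i k))
      (fun _ _ => add_nonneg (nsq_nonneg _) (nsq_nonneg _)) (mem_univ k)
  have h1 : 0 ≤ ∑ a, (nsq (x.s a) + nsq (x.p a)) :=
    sum_nonneg fun _ _ => add_nonneg (nsq_nonneg _) (nsq_nonneg _)
  have h2 : 0 ≤ ∑ k, (nsq (x.j k) + nsq (x.i k)) :=
    sum_nonneg fun _ _ => add_nonneg (nsq_nonneg _) (nsq_nonneg _)
  unfold nn at h
  refine ⟨fun a r s => key _ ?_, fun a r s => key _ ?_, fun k r s => key _ ?_,
    fun k r s => key _ ?_⟩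
  · have := le_nsq (x.s a) r s
    have := nsq_nonneg (x.p a)
    linarith [hA a]
  · have := le_nsq (x.p a) r s
    have := nsq_nonneg (x.s a)
    linarith [hA a]
  · have := le_nsq (x.i k) r s
    have := nsq_nonneg (x.j k)
    linarith [hI k]
  · have := le_nsq (x.j k) r s
    have := nsq_nonneg (x.i k)
    linarith [hI k]

theorem exists_min {ν : D.I → ℤ} {x : Pt D} (h : Cx ν x) :
    ∃ y : Pt D, Cx ν y ∧ (Uf x → Uf y) ∧ ∀ z : Pt D, Cx ν z → (Uf x → Uf z) → nn y ≤ nn z := by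
  classical
  set S : Set (Tp D) := {t | Cx ν (tp t) ∧ (Uf x → Uf (tp t))} with hS
  set R := nn x with hR
  have hcl : IsClosed S := by
    have e : S = (⋂ ξ : Lg D, {t | mom (tp t) ξ = ∑ k, (ν k : ℂ) * (ξ k).trace}) ∩
        (⋂ _ : Uf x, ({t : Tp D | t.2.2.1 = 0} ∩ {t : Tp D | t.2.2.2 = 0})) := by
      ext t
      simp only [hS, Cx, Uf, Set.mem_ofPred_eq, Set.mem_inter_iff, Set.mem_iInter, tp]
    rw [e]
    refine (isClosed_iInter fun ξ => isClosed_eq (cont_mom ξ) continuous_const).inter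
      (isClosed_iInter fun _ => ?_)
    exact (isClosed_eq (continuous_fst.comp (continuous_snd.comp continuous_snd))
      continuous_const).inter (isClosed_eq (continuous_snd.comp (continuous_snd.comp continuous_snd))
      continuous_const)
  have hcl2 : IsClosed (S ∩ {t | nn (tp t) ≤ R}) :=
    hcl.inter (isClosed_le cont_nn continuous_const)
  have hK : IsCompact (S ∩ {t | nn (tp t) ≤ R}) := by
    have hc := (compact_fam (α := D.A) (fun a => D.v (D.tgt a)) (fun a => D.v (D.src a)) √R).prod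
      ((compact_fam (α := D.A) (fun a => D.v (D.src a)) (fun a => D.v (D.tgt a)) √R).prod
      ((compact_fam (α := D.I) (fun k => D.w k) (fun k => D.v k) √R).prod
      (compact_fam (α := D.I) (fun k => D.v k) (fun k => D.w k) √R)))
    refine hc.of_isClosed_subset hcl2 ?_
    rintro t ⟨_, ht⟩
    obtain ⟨h1, h2, h3, h4⟩ := entry_le (x := tp t) ht
    exact ⟨h1, h2, h3, h4⟩
  have hne : (S ∩ {t | nn (tp t) ≤ R}).Nonempty :=
    ⟨(x.s, x.p, x.i, x.j), ⟨h, fun hu => hu⟩,
      (show nn (tp (x.s, x.p, x.i, x.j)) ≤ R from le_refl _)⟩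
  obtain ⟨t, ⟨⟨ht1, ht2⟩, ht3⟩, hmin⟩ := hK.exists_isMinOn hne cont_nn.continuousOn
  refine ⟨tp t, ht1, ht2, fun z hz hz' => ?_⟩
  by_cases hzR : nn z ≤ R
  · exact hmin (a := (z.s, z.p, z.i, z.j)) ⟨⟨hz, hz'⟩, hzR⟩
  · exact (le_trans ht3 (not_le.1 hzR).le)

/-! ### the real moment map vanishes there -/

theorem eq_of_min {α β : ℝ} (hα : 0 ≤ α) (hβ : 0 ≤ β)
    (h : ∀ c : ℝ, 0 < c → α + β ≤ c ^ 2 * α + (c⁻¹) ^ 2 * β) : α = β := by
  have key : ∀ t : ℝ, 0 < t → 0 ≤ (t - 1) * (α * t - β) := by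
    intro t ht
    have h1 := h (√t) (Real.sqrt_pos.2 ht)
    rw [inv_pow, Real.sq_sqrt ht.le] at h1
    have h2 : 0 ≤ t * (t * α + t⁻¹ * β - (α + β)) := mul_nonneg ht.le (by linarith)
    have h3 : t * (t * α + t⁻¹ * β - (α + β)) = (t - 1) * (α * t - β) := by
      field_simp
      ring
    rwa [h3] at h2
  by_contra hne
  rcases lt_or_gt_of_ne hne with hlt | hgt
  · -- α < β
    set ε := (β - α) / (2 * (α + 1)) with hε
    have hp : 0 < α + 1 := by linarith
    have hε0 : 0 < ε := div_pos (by linarith) (by linarith)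
    have h1 := key (1 + ε) (by linarith)
    have h2 : ε * (α + 1) = (β - α) / 2 := by
      rw [hε]
      field_simp
    have h3 : 0 ≤ α * (1 + ε) - β := by
      rw [add_sub_cancel_left] at h1
      exact nonneg_of_mul_nonneg_right h1 hε0 |> fun h => h
    nlinarith
  · -- β < α
    set ε := (α - β) / (2 * (α + 1)) with hε
    have hp : 0 < α + 1 := by linarith
    have hε0 : 0 < ε := div_pos (by linarith) (by linarith)
    have hε1 : ε < 1 := by
      rw [hε, div_lt_one (by linarith)]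
      linarith
    have h1 := key (1 - ε) (by linarith)
    have h2 : ε * (α + 1) = (α - β) / 2 := by
      rw [hε]
      field_simp
    have h3 : α * (1 - ε) - β ≤ 0 := by
      by_contra hc
      push Not at hc
      nlinarith [mul_pos hε0 hc]
    nlinarith

theorem mv_one (P : Lg D) (x : Pt D) : mv P 1 x = x := by
  unfold mv
  simp [gc_one]

theorem mv_uf {P : Lg D} {c : ℝ} {x : Pt D} (h : Uf x) : Uf (mv P c x) := by
  refine ⟨?_, ?_⟩
  · funext k
    simp [mv, h.1]
  · funext k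
    simp [mv, h.2]

/-- the real moment map as a linear functional -/
noncomputable def rmomL (x : Pt D) : Gl D.v →ₗ[ℂ] ℂ where
  toFun ξ := rmom x ξ
  map_add' ξ η := by
    unfold rmom
    simp only [Pi.add_apply, Matrix.add_mul, trace_add, sum_add_distrib]
    ring
  map_smul' c ξ := by
    unfold rmom
    simp only [Pi.smul_apply, Matrix.smul_mul, trace_smul, smul_eq_mul, RingHom.id_apply,
      sum_add_distrib, ← mul_sum, mul_add]

theorem rmom_min {ν : D.I → ℤ} {x y : Pt D} (hy : Cx ν y) (hu : Uf x → Uf y)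
    (hm : ∀ z : Pt D, Cx ν z → (Uf x → Uf z) → nn y ≤ nn z) (ξ : Lg D) : rmom y ξ = 0 := by
  refine vanish (rmomL y) (fun P hP => ?_) ξ
  change rmom y P = 0
  rw [rmom_pr hP]
  have h : al P y = be P y := by
    refine eq_of_min (al_nonneg _ _) (be_nonneg _ _) fun c hc => ?_
    have h1 := hm (mv P c y) (cx_mv hP hc.ne' hy) fun h => mv_uf (hu h)
    have h2 := nn_mv hP (one_ne_zero (α := ℝ)) y
    rw [mv_one, inv_one] at h2
    rw [nn_mv hP hc.ne', h2] at h1
    linarith
  rw [h, sub_self]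
  rfl

/-! ### rotation -/

theorem mom_eq (x : Pt D) (ξ : Lg D) : mom x ξ =
    (∑ a, ((ξ (D.tgt a) * (x.s a * x.p a)).trace - (ξ (D.src a) * (x.p a * x.s a)).trace)) -
      ∑ k, (ξ k * (x.j k * x.i k)).trace := by
  unfold mom
  rw [sub_eq_add_neg, ← sum_neg_distrib]
  congr 1
  · refine sum_congr rfl fun a _ => ?_
    rw [Matrix.mul_sub, trace_sub]
    congr 1
    · rw [trace_mul_comm, Matrix.mul_assoc]
    · rw [← Matrix.mul_assoc, trace_mul_comm]
  · refine sum_congr rfl fun k _ => ?_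
    rw [Matrix.mul_neg, trace_neg, ← Matrix.mul_assoc, trace_mul_comm]

theorem tr_star {n : ℕ} (X M : Matrix (Fin n) (Fin n) ℂ) :
    star (Xᴴ * M).trace = (X * Mᴴ).trace := by
  rw [← trace_conjTranspose, conjTranspose_mul, conjTranspose_conjTranspose, trace_mul_comm]

theorem mom_star (x : Pt D) (ξ : Lg D) : star (mom x fun k => (ξ k)ᴴ) =
    (∑ a, ((ξ (D.tgt a) * (x.s a * x.p a)ᴴ).trace - (ξ (D.src a) * (x.p a * x.s a)ᴴ).trace)) -
      ∑ k, (ξ k * (x.j k * x.i k)ᴴ).trace := by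
  rw [mom_eq, star_sub, star_sum, star_sum]
  simp only [star_sub, tr_star]

/-- rotated point -/
noncomputable def rot (t : ℂ) (x : Pt D) : Pt D where
  s a := t • (x.s a + (x.p a)ᴴ)
  p a := t • (x.p a - (x.s a)ᴴ)
  i k := t • (x.i k + (x.j k)ᴴ)
  j k := t • (x.j k - (x.i k)ᴴ)

theorem mom_rot (t : ℂ) (x : Pt D) (ξ : Lg D) : mom (rot t x) ξ =
    t * t * (mom x ξ - star (mom x fun k => (ξ k)ᴴ) - rmom x ξ) := by
  rw [mom_star, mom_eq, mom_eq]
  unfold rmom rot
  simp only [conjTranspose_mul, Matrix.smul_mul, Matrix.mul_smul, trace_smul, smul_eq_mul,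
    Matrix.mul_add, Matrix.add_mul, Matrix.mul_sub, Matrix.sub_mul, trace_add, trace_sub]
  rw [show ∀ A B C E F G T : ℂ, T * (A - B - (C - E) - (F + G)) =
    T * (A - C - F) - T * (B - E + G) from fun A B C E F G T => by ring]
  rw [← sum_sub_distrib, ← sum_sub_distrib, ← sum_sub_distrib, ← sum_add_distrib, mul_sum, mul_sum]
  congr 1
  · refine sum_congr rfl fun a _ => ?_
    ring
  · refine sum_congr rfl fun k _ => ?_
    ring

theorem rmom_rot {t : ℂ} (ht : star t = t) (x : Pt D) (ξ : Lg D) : rmom (rot t x) ξ =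
    2 * (t * t) * (mom x ξ + star (mom x fun k => (ξ k)ᴴ)) := by
  rw [mom_star, mom_eq]
  unfold rmom rot
  simp only [conjTranspose_mul, Matrix.smul_mul, Matrix.mul_smul, trace_smul, smul_eq_mul,
    Matrix.mul_add, Matrix.add_mul, Matrix.mul_sub, Matrix.sub_mul, trace_add, trace_sub,
    conjTranspose_smul, conjTranspose_add, conjTranspose_sub, conjTranspose_conjTranspose, ht]
  rw [show ∀ A B C E T : ℂ, T * (A - B + (C - E)) =
    T * (A + C) - T * (B + E) from fun A B C E T => by ring]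
  rw [← sum_add_distrib, ← sum_add_distrib, mul_sum, mul_sum, sub_eq_add_neg, ← sum_neg_distrib]
  congr 1
  · refine sum_congr rfl fun a _ => ?_
    ring
  · refine sum_congr rfl fun k _ => ?_
    ring

end H17

variable {D : QData}

/-- a solution of `μ_ℂ = ν` gives a solution of `μ_ℂ = 0`, `μ_ℝ = 2 ν` -/
theorem exists_Rl {ν : D.I → ℤ} {x : Pt D} (h : Cx ν x) : ∃ y : Pt D, Rl ν y ∧ (Uf x → Uf y) := by
  obtain ⟨y, h1, h2, h3⟩ := exists_min h
  have h4 := rmom_min h1 h2 h3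
  obtain ⟨t, ht1, ht2⟩ : ∃ t : ℂ, star t = t ∧ t * t = 1 / 2 := by
    refine ⟨((√(1 / 2) : ℝ) : ℂ), Complex.conj_ofReal _, ?_⟩
    rw [← Complex.ofReal_mul, Real.mul_self_sqrt (by norm_num)]
    norm_num
  have h5 : ∀ ξ : Lg D, star (mom y fun k => (ξ k)ᴴ) = ∑ k, (ν k : ℂ) * (ξ k).trace := by
    intro ξ
    rw [h1, star_sum]
    refine sum_congr rfl fun k _ => ?_
    rw [star_mul', trace_conjTranspose, star_star]
    congr 1
    exact star_intCast _
  refine ⟨rot t y, ⟨?_, fun ξ => ?_⟩, fun hu => ⟨?_, ?_⟩⟩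
  · funext ξ
    rw [mom_rot, h4, h5, h1]
    simp
  · rw [rmom_rot ht1, h5, h1, ht2]
    ring
  · funext k
    simp [rot, (h2 hu).1, (h2 hu).2]
  · funext k
    simp [rot, (h2 hu).1, (h2 hu).2]

end Vale.Agent.P291.RG
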