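import Vale.Agent.P291.RG.H17.Mom

/-!
# P291, part B: solutions of `μ_ℝ = 2 ν` are `ν`-semistable (helper17)
-/

set_option autoImplicit false
set_option linter.unusedSectionVars false

namespace Vale.Agent.P291.RG

open Vale.Agent.P291.Q Matrix Finset H17

namespace H17

/-- the orthogonal projection on a subspace -/
theorem exists_pr {n : ℕ} (U : Submodule ℂ (Fin n → ℂ)) :
    ∃ P : Matrix (Fin n) (Fin n) ℂ, IsPr P ∧ (∀ u, P *ᵥ u ∈ U) ∧ (∀ u ∈ U, P *ᵥ u = u) ∧
      P.trace = (Module.finrank ℂ U : ℂ) := by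
  classical
  let e : EuclideanSpace ℂ (Fin n) ≃ₗ[ℂ] (Fin n → ℂ) := WithLp.linearEquiv 2 ℂ (Fin n → ℂ)
  let U' : Submodule ℂ (EuclideanSpace ℂ (Fin n)) := U.comap e.toLinearMap
  let f : EuclideanSpace ℂ (Fin n) →ₗ[ℂ] EuclideanSpace ℂ (Fin n) :=
    (U'.starProjection).toLinearMap
  let g : (Fin n → ℂ) →ₗ[ℂ] (Fin n → ℂ) := e.toLinearMap ∘ₗ f ∘ₗ e.symm.toLinearMap
  have hg : ∀ u, g u = e (f (e.symm u)) := fun _ => rfl
  have hm : ∀ u, g u ∈ U := fun u => by
    have : f (e.symm u) ∈ U' := Submodule.starProjection_apply_mem U' _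
    exact this
  have hid : ∀ u ∈ U, g u = u := fun u hu => by
    have : f (e.symm u) = e.symm u := by
      refine Submodule.starProjection_eq_self_iff.2 ?_
      change e (e.symm u) ∈ U
      rwa [e.apply_symm_apply]
    rw [hg, this, e.apply_symm_apply]
  have hsym : ∀ x y, inner ℂ (f x) y = inner ℂ x (f y) := U'.starProjection_isSymmetric
  have hP : ∀ a b, LinearMap.toMatrix' g a b =
      inner ℂ (EuclideanSpace.single a (1 : ℂ)) (f (EuclideanSpace.single b 1)) := by
    intro a b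
    rw [LinearMap.toMatrix'_apply, EuclideanSpace.inner_single_left]
    simp only [map_one, one_mul]
    rfl
  refine ⟨LinearMap.toMatrix' g, ⟨?_, ?_⟩, fun u => ?_, fun u hu => ?_, ?_⟩
  · rw [← LinearMap.toMatrix'_comp]
    congr 1
    refine LinearMap.ext fun u => ?_
    exact hid _ (hm _)
  · ext a b
    rw [conjTranspose_apply, hP, hP, ← hsym]
    exact inner_conj_symm _ _
  · rw [LinearMap.toMatrix'_mulVec]
    exact hm u
  · rw [LinearMap.toMatrix'_mulVec]
    exact hid u hu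
  · have hp : LinearMap.IsProj U g := ⟨hm, hid⟩
    rw [← hp.trace, LinearMap.trace_eq_matrix_trace ℂ (Pi.basisFun ℂ (Fin n)),
      LinearMap.toMatrix_eq_toMatrix']

theorem mul_eq_zero_of {m n : ℕ} {M : Matrix (Fin m) (Fin n) ℂ} (h : ∀ u, M *ᵥ u = 0) : M = 0 := by
  refine Matrix.ext fun i j => ?_
  have := congrFun (h (Pi.single j 1)) i
  simpa using this

end H17

variable {D : QData}

/-- solutions of `μ_ℝ = 2 ν` are `ν`-semistable -/
theorem sst_of_Rl {ν : D.I → ℤ} {x : Pt D} (h : Rl ν x) : Sst ν x := by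
  intro U hU
  choose P hP hPm hPi hPt using fun k => exists_pr (U k)
  have htr : ∀ k, (1 - P k).trace = (Module.finrank ℂ (Fin (D.v k) → ℂ) : ℂ) -
      Module.finrank ℂ (U k) := by
    intro k
    rw [trace_sub, hPt, trace_one, Module.finrank_fin_fun, Fintype.card_fin]
  have z1 : ∀ a, (1 - P (D.tgt a)) * x.s a * P (D.src a) = 0 := by
    intro a
    refine mul_eq_zero_of fun u => ?_
    rw [← mulVec_mulVec, ← mulVec_mulVec, sub_mulVec, one_mulVec,
      hPi _ _ (hU.1 a _ (hPm _ u)), sub_self]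
  have z2 : ∀ a, (1 - P (D.src a)) * x.p a * P (D.tgt a) = 0 := by
    intro a
    refine mul_eq_zero_of fun u => ?_
    rw [← mulVec_mulVec, ← mulVec_mulVec, sub_mulVec, one_mulVec,
      hPi _ _ (hU.2 a _ (hPm _ u)), sub_self]
  refine ⟨fun hk => ?_, fun hi => ?_⟩
  · have e := h.2 P
    rw [rmom_pr hP] at e
    have z3 : ∀ k, (1 : Matrix (Fin (D.w k)) (Fin (D.w k)) ℂ) * x.i k * P k = 0 := by
      intro k
      refine mul_eq_zero_of fun u => ?_
      rw [Matrix.one_mul, ← mulVec_mulVec, hk k _ (hPm k u)]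
    have hb : be P x = 0 := by
      unfold be
      simp only [z1, z2, z3, nsq_zero, add_zero, sum_const_zero]
    rw [hb, sub_zero] at e
    have e2 : ((al P x : ℝ) : ℂ) = ((2 * (nd ν U : ℝ) : ℝ) : ℂ) := by
      rw [e]
      unfold nd
      push_cast
      congr 1
      exact sum_congr rfl fun k _ => by rw [hPt]
    have e3 : al P x = 2 * (nd ν U : ℝ) := by exact_mod_cast e2
    have e4 := al_nonneg P x
    have e5 : (0 : ℝ) ≤ (nd ν U : ℝ) := by linarith
    exact_mod_cast e5
  · have hQ : IsGr (fun k => 1 - P k) := fun k => (hP k).compl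
    have e := h.2 fun k => 1 - P k
    rw [rmom_pr hQ] at e
    have z3 : ∀ k, (1 - P k) * x.j k * (1 : Matrix (Fin (D.w k)) (Fin (D.w k)) ℂ) = 0 := by
      intro k
      refine mul_eq_zero_of fun u => ?_
      rw [Matrix.mul_one, ← mulVec_mulVec, sub_mulVec, one_mulVec, hPi _ _ (hi k u), sub_self]
    have ha : al (fun k => 1 - P k) x = 0 := by
      unfold al
      simp only [sub_sub_cancel, z1, z2, z3, nsq_zero, add_zero, sum_const_zero]
    rw [ha, zero_sub] at e
    have e2 : ((-be (fun k => 1 - P k) x : ℝ) : ℂ) =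
        ((2 * ((nd ν (⊤ : Fam D) : ℝ) - (nd ν U : ℝ)) : ℝ) : ℂ) := by
      rw [e]
      unfold nd
      push_cast
      rw [← sum_sub_distrib]
      congr 1
      refine sum_congr rfl fun k _ => ?_
      rw [htr, Pi.top_apply, finrank_top]
      ring
    have e3 : -be (fun k => 1 - P k) x = 2 * ((nd ν (⊤ : Fam D) : ℝ) - (nd ν U : ℝ)) := by
      exact_mod_cast e2
    have e4 := be_nonneg (fun k => 1 - P k) x
    have e5 : (nd ν (⊤ : Fam D) : ℝ) ≤ (nd ν U : ℝ) := by linarith
    exact_mod_cast e5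

end Vale.Agent.P291.RG
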