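import Vale.Agent.P291.RG.Pts

set_option autoImplicit false

/-! Direct sums of a framed and an unframed solution (helper827). -/

namespace Vale.Agent.P291.RG

open Vale.Agent.P291.Q Matrix

noncomputable section

/-- `Fin (a + b) ≃ Fin a ⊕ Fin b` -/
abbrev fe (a b : ℕ) : Fin (a + b) ≃ Fin a ⊕ Fin b := finSumFinEquiv.symm

section Mat

variable {a b c d w : ℕ}

/-- diagonal blocks -/
def b1 (M : Matrix (Fin (a + b)) (Fin (a + b)) ℂ) : Matrix (Fin a) (Fin a) ℂ :=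
  (M.submatrix (fe a b).symm (fe a b).symm).toBlocks₁₁

def b2 (M : Matrix (Fin (a + b)) (Fin (a + b)) ℂ) : Matrix (Fin b) (Fin b) ℂ :=
  (M.submatrix (fe a b).symm (fe a b).symm).toBlocks₂₂

/-- block diagonal matrices -/
def bd (s : Matrix (Fin a) (Fin c) ℂ) (s' : Matrix (Fin b) (Fin d) ℂ) :
    Matrix (Fin (a + b)) (Fin (c + d)) ℂ :=
  (fromBlocks s 0 0 s').submatrix (fe a b) (fe c d)

def rw1 (s : Matrix (Fin w) (Fin a) ℂ) : Matrix (Fin w) (Fin (a + b)) ℂ :=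
  (fromCols s (0 : Matrix (Fin w) (Fin b) ℂ)).submatrix id (fe a b)

def cl1 (s : Matrix (Fin a) (Fin w) ℂ) : Matrix (Fin (a + b)) (Fin w) ℂ :=
  (fromRows s (0 : Matrix (Fin b) (Fin w) ℂ)).submatrix (fe a b) id

lemma tr_sub (M : Matrix (Fin a ⊕ Fin b) (Fin a ⊕ Fin b) ℂ) :
    (M.submatrix (fe a b) (fe a b)).trace = M.trace := by
  simp only [Matrix.trace, Matrix.diag_apply, Matrix.submatrix_apply]
  exact (fe a b).sum_comp fun t => M t t

lemma tr_fb (A : Matrix (Fin a) (Fin a) ℂ) (B : Matrix (Fin a) (Fin b) ℂ)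
    (C : Matrix (Fin b) (Fin a) ℂ) (E : Matrix (Fin b) (Fin b) ℂ) :
    (fromBlocks A B C E).trace = A.trace + E.trace := by
  simp [Matrix.trace, Fintype.sum_sum_type]

lemma blk (M : Matrix (Fin (a + b)) (Fin (a + b)) ℂ) :
    ∃ B C, M = (fromBlocks (b1 M) B C (b2 M)).submatrix (fe a b) (fe a b) := by
  refine ⟨(M.submatrix (fe a b).symm (fe a b).symm).toBlocks₁₂,
    (M.submatrix (fe a b).symm (fe a b).symm).toBlocks₂₁, ?_⟩
  rw [b1, b2, fromBlocks_toBlocks]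
  ext i j
  simp

lemma tr_blk (M : Matrix (Fin (a + b)) (Fin (a + b)) ℂ) :
    M.trace = (b1 M).trace + (b2 M).trace := by
  obtain ⟨B, C, h⟩ := blk M
  conv_lhs => rw [h]
  rw [tr_sub, tr_fb]

lemma bd_mul {e f : ℕ} (s : Matrix (Fin a) (Fin c) ℂ) (s' : Matrix (Fin b) (Fin d) ℂ)
    (t : Matrix (Fin c) (Fin e) ℂ) (t' : Matrix (Fin d) (Fin f) ℂ) :
    bd s s' * bd t t' = bd (s * t) (s' * t') := by
  rw [bd, bd, submatrix_mul_equiv, fromBlocks_multiply, bd]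
  simp

lemma bd_H (s : Matrix (Fin a) (Fin c) ℂ) (s' : Matrix (Fin b) (Fin d) ℂ) :
    (bd s s')ᴴ = bd sᴴ s'ᴴ := by
  rw [bd, conjTranspose_submatrix, fromBlocks_conjTranspose, bd]
  simp

lemma bd_sub (s t : Matrix (Fin a) (Fin c) ℂ) (s' t' : Matrix (Fin b) (Fin d) ℂ) :
    bd s s' - bd t t' = bd (s - t) (s' - t') := by
  rw [bd, bd, bd]
  ext i j
  simp only [Matrix.sub_apply, submatrix_apply]
  rcases (fe a b) i with i' | i' <;> rcases (fe c d) j with j' | j' <;> simp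

lemma tr_mul_bd (M : Matrix (Fin (a + b)) (Fin (a + b)) ℂ) (s : Matrix (Fin a) (Fin a) ℂ)
    (s' : Matrix (Fin b) (Fin b) ℂ) :
    (M * bd s s').trace = (b1 M * s).trace + (b2 M * s').trace := by
  obtain ⟨B, C, h⟩ := blk M
  conv_lhs => rw [h]
  rw [bd, submatrix_mul_equiv, tr_sub, fromBlocks_multiply, tr_fb]
  simp

lemma rw1_mul_cl1 {w' : ℕ} (s : Matrix (Fin w) (Fin a) ℂ) (t : Matrix (Fin a) (Fin w') ℂ) :
    rw1 (b := b) s * cl1 (b := b) t = s * t := by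
  rw [rw1, cl1, submatrix_mul_equiv, fromCols_mul_fromRows]
  simp

lemma cl1_mul_rw1 {c d : ℕ} (s : Matrix (Fin a) (Fin w) ℂ) (t : Matrix (Fin w) (Fin c) ℂ) :
    cl1 (b := b) s * rw1 (b := d) t = bd (s * t) 0 := by
  rw [rw1, cl1, bd]
  ext i j
  simp only [submatrix_apply, Matrix.mul_apply, id]
  rcases (fe a b) i with i' | i' <;> rcases (fe c d) j with j' | j' <;> simp [Matrix.mul_apply]

lemma rw1_H (s : Matrix (Fin w) (Fin a) ℂ) : (rw1 (b := b) s)ᴴ = cl1 (b := b) sᴴ := by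
  ext i j
  simp only [rw1, cl1, conjTranspose_apply, submatrix_apply, id]
  rcases (fe a b) i with i' | i' <;> simp

lemma cl1_H (s : Matrix (Fin a) (Fin w) ℂ) : (cl1 (b := b) s)ᴴ = rw1 (b := b) sᴴ := by
  ext i j
  simp only [rw1, cl1, conjTranspose_apply, submatrix_apply, id]
  rcases (fe a b) j with j' | j' <;> simp

/-- arrow term of the complex moment map -/
lemma tr_arrow (ξt : Matrix (Fin (a + b)) (Fin (a + b)) ℂ) (ξs : Matrix (Fin (c + d)) (Fin (c + d)) ℂ)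
    (s : Matrix (Fin a) (Fin c) ℂ) (s' : Matrix (Fin b) (Fin d) ℂ)
    (p : Matrix (Fin c) (Fin a) ℂ) (p' : Matrix (Fin d) (Fin b) ℂ) :
    (bd p p' * (ξt * bd s s' - bd s s' * ξs)).trace =
      (p * (b1 ξt * s - s * b1 ξs)).trace + (p' * (b2 ξt * s' - s' * b2 ξs)).trace := by
  have e1 : (bd p p' * (ξt * bd s s' - bd s s' * ξs)).trace =
      (ξt * bd (s * p) (s' * p')).trace - (ξs * bd (p * s) (p' * s')).trace := by
    rw [Matrix.mul_sub, trace_sub, ← bd_mul, ← bd_mul]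
    congr 1
    · rw [Matrix.trace_mul_comm, Matrix.mul_assoc]
    · rw [← Matrix.mul_assoc, Matrix.trace_mul_comm]
  rw [e1, tr_mul_bd, tr_mul_bd, Matrix.mul_sub, Matrix.mul_sub, trace_sub, trace_sub]
  have e2 : (p * (b1 ξt * s)).trace = (b1 ξt * (s * p)).trace := by
    rw [Matrix.trace_mul_comm, Matrix.mul_assoc]
  have e3 : (p * (s * b1 ξs)).trace = (b1 ξs * (p * s)).trace := by
    rw [← Matrix.mul_assoc, Matrix.trace_mul_comm]
  have e4 : (p' * (b2 ξt * s')).trace = (b2 ξt * (s' * p')).trace := by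
    rw [Matrix.trace_mul_comm, Matrix.mul_assoc]
  have e5 : (p' * (s' * b2 ξs)).trace = (b2 ξs * (p' * s')).trace := by
    rw [← Matrix.mul_assoc, Matrix.trace_mul_comm]
  rw [e2, e3, e4, e5]
  ring

/-- framing term of the complex moment map -/
lemma tr_framing (ξ : Matrix (Fin (a + b)) (Fin (a + b)) ℂ) (i : Matrix (Fin w) (Fin a) ℂ)
    (j : Matrix (Fin a) (Fin w) ℂ) :
    (cl1 (b := b) j * -(rw1 (b := b) i * ξ)).trace = (j * -(i * b1 ξ)).trace := by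
  rw [Matrix.mul_neg, trace_neg, ← Matrix.mul_assoc, cl1_mul_rw1, Matrix.trace_mul_comm, tr_mul_bd,
    Matrix.mul_neg, trace_neg, Matrix.trace_mul_comm (b1 ξ), Matrix.mul_assoc]
  simp

/-- arrow term of the real moment map -/
lemma tr_arrow_R (ξ : Matrix (Fin (a + b)) (Fin (a + b)) ℂ)
    (s : Matrix (Fin a) (Fin c) ℂ) (s' : Matrix (Fin b) (Fin d) ℂ)
    (p : Matrix (Fin c) (Fin a) ℂ) (p' : Matrix (Fin d) (Fin b) ℂ) :
    (ξ * (bd s s' * (bd s s')ᴴ - (bd p p')ᴴ * bd p p')).trace =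
      (b1 ξ * (s * sᴴ - pᴴ * p)).trace + (b2 ξ * (s' * s'ᴴ - p'ᴴ * p')).trace := by
  rw [bd_H, bd_H, bd_mul, bd_mul, bd_sub, tr_mul_bd]

/-- framing term of the real moment map -/
lemma tr_framing_R (ξ : Matrix (Fin (a + b)) (Fin (a + b)) ℂ) (i : Matrix (Fin w) (Fin a) ℂ)
    (j : Matrix (Fin a) (Fin w) ℂ) :
    (ξ * (cl1 (b := b) j * (cl1 (b := b) j)ᴴ - (rw1 (b := b) i)ᴴ * rw1 (b := b) i)).trace =
      (b1 ξ * (j * jᴴ - iᴴ * i)).trace := by
  rw [cl1_H, rw1_H, cl1_mul_rw1, cl1_mul_rw1, bd_sub, tr_mul_bd]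
  simp

/-- the automorphism `1` on the first summand, `2` on the second -/
def g2 (a b : ℕ) : GL (Fin (a + b)) ℂ where
  val := bd 1 ((2 : ℂ) • 1)
  inv := bd 1 ((2 : ℂ)⁻¹ • 1)
  val_inv := by
    rw [bd_mul, bd]
    simp
  inv_val := by
    rw [bd_mul, bd]
    simp

lemma g2_conj (s : Matrix (Fin a) (Fin c) ℂ) (s' : Matrix (Fin b) (Fin d) ℂ) :
    (g2 a b).1 * bd s s' * (g2 c d)⁻¹.1 = bd s s' := by
  change bd 1 ((2 : ℂ) • 1) * bd s s' * bd 1 ((2 : ℂ)⁻¹ • 1) = bd s s'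
  rw [bd_mul, bd_mul]
  simp

lemma g2_rw (i : Matrix (Fin w) (Fin a) ℂ) : rw1 (b := b) i * (g2 a b)⁻¹.1 = rw1 i := by
  change rw1 (b := b) i * bd 1 ((2 : ℂ)⁻¹ • 1) = rw1 i
  rw [rw1, bd]
  have h := submatrix_mul_equiv (fromCols i (0 : Matrix (Fin w) (Fin b) ℂ))
    (fromBlocks 1 0 0 ((2 : ℂ)⁻¹ • (1 : Matrix (Fin b) (Fin b) ℂ))) id (fe a b) (fe a b)
  rw [h, fromCols_mul_fromBlocks]
  simp

lemma g2_cl (j : Matrix (Fin a) (Fin w) ℂ) : (g2 a b).1 * cl1 (b := b) j = cl1 j := by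
  change bd 1 ((2 : ℂ) • 1) * cl1 (b := b) j = cl1 j
  rw [cl1, bd]
  have h := submatrix_mul_equiv (fromBlocks 1 0 0 ((2 : ℂ) • (1 : Matrix (Fin b) (Fin b) ℂ)))
    (fromRows j (0 : Matrix (Fin b) (Fin w) ℂ)) (fe a b) (fe a b) id
  rw [h, fromBlocks_mul_fromRows]
  simp

lemma g2_ne (hb : b ≠ 0) : g2 a b ≠ 1 := by
  intro h
  have h1 := congrArg (fun g : GL (Fin (a + b)) ℂ => g.1.trace) h
  change (bd (1 : Matrix (Fin a) (Fin a) ℂ) ((2 : ℂ) • (1 : Matrix (Fin b) (Fin b) ℂ))).trace =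
    (1 : Matrix (Fin (a + b)) (Fin (a + b)) ℂ).trace at h1
  rw [bd, tr_sub, tr_fb, trace_smul, trace_one, trace_one, trace_one] at h1
  simp only [Fintype.card_fin, smul_eq_mul] at h1
  have h2 : (b : ℂ) = 0 := by
    push_cast at h1
    linear_combination h1
  exact hb (by exact_mod_cast h2)

end Mat

variable {D : QData}

/-- direct sum -/
def ds (n m : D.I → ℕ) (x : Pt (sub D n)) (y : Pt (sub D m)) : Pt (sub D (n + m)) where
  s a := bd (x.s a) (y.s a)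
  p a := bd (x.p a) (y.p a)
  i k := rw1 (b := m k) (x.i k)
  j k := cl1 (b := m k) (x.j k)

/-- components of an element of `Lie G` -/
def xi1 (n m : D.I → ℕ) (ξ : Lg (sub D (n + m))) : Lg (sub D n) := fun k =>
  b1 (a := n k) (b := m k) (ξ k)

def xi2 (n m : D.I → ℕ) (ξ : Lg (sub D (n + m))) : Lg (sub D m) := fun k =>
  b2 (a := n k) (b := m k) (ξ k)

lemma mom_ds (n m : D.I → ℕ) (x : Pt (sub D n)) (y : Pt (sub D m)) (hu : Uf y)
    (ξ : Lg (sub D (n + m))) :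
    mom (ds n m x y) ξ = mom x (xi1 n m ξ) + mom y (xi2 n m ξ) := by
  have h0 : (∑ k, (y.j k * -(y.i k * xi2 n m ξ k)).trace) = 0 := by
    refine Finset.sum_eq_zero fun k _ => ?_
    rw [hu.1]
    simp
  unfold mom
  rw [h0, add_zero]
  refine Eq.trans (congrArg₂ (· + ·) (Finset.sum_congr rfl fun a _ => tr_arrow (ξ (D.tgt a))
    (ξ (D.src a)) (x.s a) (y.s a) (x.p a) (y.p a)) (Finset.sum_congr rfl fun k _ =>
    tr_framing (b := m k) (ξ k) (x.i k) (x.j k))) ?_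
  rw [Finset.sum_add_distrib]
  exact add_right_comm _ _ _

lemma rmom_ds (n m : D.I → ℕ) (x : Pt (sub D n)) (y : Pt (sub D m)) (hu : Uf y)
    (ξ : Lg (sub D (n + m))) :
    rmom (ds n m x y) ξ = rmom x (xi1 n m ξ) + rmom y (xi2 n m ξ) := by
  have h0 : (∑ k, (xi2 n m ξ k * (y.j k * (y.j k)ᴴ - (y.i k)ᴴ * y.i k)).trace) = 0 := by
    refine Finset.sum_eq_zero fun k _ => ?_
    rw [hu.1, hu.2]
    simp
  unfold rmom
  rw [h0, add_zero]
  refine Eq.trans (congrArg₂ (· + ·) (Finset.sum_congr rfl fun a _ => congrArg₂ (· + ·)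
    (tr_arrow_R (ξ (D.tgt a)) (x.s a) (y.s a) (x.p a) (y.p a))
    (tr_arrow_R (ξ (D.src a)) (x.p a) (y.p a) (x.s a) (y.s a))) (Finset.sum_congr rfl fun k _ =>
    tr_framing_R (b := m k) (ξ k) (x.i k) (x.j k))) ?_
  simp only [Finset.sum_add_distrib]
  refine Eq.trans ?_ (add_right_comm _ _ _)
  congr 1
  exact add_add_add_comm _ _ _ _

lemma tr_ds {ν : D.I → ℤ} (n m : D.I → ℕ) (ξ : Lg (sub D (n + m))) :
    (∑ k, (ν k : ℂ) * (ξ k).trace) = (∑ k, (ν k : ℂ) * (xi1 n m ξ k).trace) +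
      ∑ k, (ν k : ℂ) * (xi2 n m ξ k).trace := by
  rw [← Finset.sum_add_distrib]
  refine Finset.sum_congr rfl fun k _ => ?_
  rw [← mul_add]
  exact congrArg _ (tr_blk (a := n k) (b := m k) (ξ k))

theorem dsum {D : QData} {ν : D.I → ℤ} (n m : D.I → ℕ) {x : Pt (sub D n)} {y : Pt (sub D m)}
    (hx : Rl (D := sub D n) ν x) (hy : Rl (D := sub D m) ν y) (hu : Uf y) :
    ∃ z : Pt (sub D (n + m)), Rl (D := sub D (n + m)) ν z ∧
      (m ≠ 0 → ∃ g : Gg (sub D (n + m)), g ≠ 1 ∧ gact g z = z) := by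
  refine ⟨ds n m x y, ⟨?_, fun ξ => ?_⟩, fun hm => ⟨fun k => g2 (n k) (m k), fun h => hm ?_, ?_⟩⟩
  · ext ξ
    rw [mom_ds n m x y hu, hx.1, hy.1]
    simp
  · rw [rmom_ds n m x y hu, hx.2, hy.2, ← mul_add]
    exact congrArg _ (tr_ds n m ξ).symm
  · funext k
    by_contra hk
    exact g2_ne (a := n k) hk (congrFun h k)
  · apply Pt.ext
    · funext a
      exact g2_conj (x.s a) (y.s a)
    · funext a
      exact g2_conj (x.p a) (y.p a)
    · funext k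
      exact g2_rw (b := m k) (x.i k)
    · funext k
      exact g2_cl (b := m k) (x.j k)

end

end Vale.Agent.P291.RG
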