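import Vale.Agent.P291.RG.Glue
import Vale.Agent.P291.RG.Rot
import Vale.Agent.P291.RG.Sst
import Vale.Agent.P291.RG.Sum

set_option autoImplicit false

/-! Regular characters satisfy `Reg`. -/

namespace Vale.Agent.P291.RG

open Vale.Agent.P291.Q

lemma sum_list {D : QData} {ν : D.I → ℤ} (s : List (D.I → ℕ)) :
    (∀ n ∈ s, n ≠ 0 ∧ ∃ x : Pt (sub D n), Uf x ∧ Rl (D := sub D n) ν x) →
    ∀ (n₀ : D.I → ℕ) (x : Pt (sub D n₀)), Rl (D := sub D n₀) ν x → ∀ v, n₀ + s.sum = v →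
    ∃ z : Pt (sub D v), Rl (D := sub D v) ν z ∧
      (s ≠ [] → ∃ g : Gg (sub D v), g ≠ 1 ∧ gact g z = z) := by
  induction s using List.reverseRecOn with
  | nil =>
    intro _ n₀ x hx v hv
    rw [List.sum_nil, add_zero] at hv
    subst hv
    exact ⟨x, hx, fun h => absurd rfl h⟩
  | append_singleton s n ih =>
    intro hs n₀ x hx v hv
    rw [List.sum_append, List.sum_singleton, ← add_assoc] at hv
    obtain ⟨z, hz, -⟩ := ih (fun m hm => hs m (List.mem_append_left _ hm)) n₀ x hx _ rfl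
    obtain ⟨hn, y, hy1, hy2⟩ := hs n (List.mem_append_right _ (List.mem_singleton_self n))
    obtain ⟨w, hw1, hw2⟩ := dsum (n₀ + s.sum) n hz hy2 hy1
    subst hv
    exact ⟨w, hw1, fun _ => hw2 hn⟩

/-- regular characters satisfy `Reg` -/
theorem reg_of_regular (D : QData) (ν : D.I → ℤ) (h : Regular D ν) : Reg D ν := by
  intro n₀ s hv hs hn
  by_contra h0
  obtain ⟨x, hx⟩ := exists_Cx_framed h0 ν
  obtain ⟨y, hy, -⟩ := exists_Rl hx
  have h1 : ∀ n ∈ s, n ≠ 0 ∧ ∃ x : Pt (sub D n), Uf x ∧ Rl (D := sub D n) ν x := by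
    intro n hns
    obtain ⟨h2, h3, h4⟩ := hn n hns
    refine ⟨h2, ?_⟩
    obtain ⟨x, hx1, hx2⟩ := exists_Cx_unframed h4 (ν := ν) h2 h3
    obtain ⟨y, hy1, hy2⟩ := exists_Rl hx2
    exact ⟨y, hy2 hx1, hy1⟩
  obtain ⟨z, hz, hg⟩ := sum_list s h1 n₀ y hy D.v hv
  obtain ⟨g, hg1, hg2⟩ := hg hs
  have h2 : Sst ν z := sst_of_Rl hz
  have h3 : Sta (D := sub D D.v) ν z := (h.1 z hz.1).1 h2
  exact hg1 (h.2 z hz.1 h3 g hg2)

end Vale.Agent.P291.RG
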