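import Mathlib

set_option autoImplicit false

/-! Hilbert functions of homogeneous subspaces of a polynomial ring, with weights in `(T → ℤ) × ℤ`. -/

namespace Vale.Agent.P291.RG

open MvPolynomial

/-- weights: a character of the torus, and a degree -/
abbrev Gm (T : Type) : Type := (T → ℤ) × ℤ

/-- the group ring of the weights -/
abbrev GR (T : Type) : Type := AddMonoidAlgebra ℤ (Gm T)

/-- the class of a weight -/
noncomputable def cl {T : Type} (g : Gm T) : GR T := AddMonoidAlgebra.single g 1

lemma cl_add {T : Type} (g h : Gm T) : cl (g + h) = cl g * cl h := by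
  simp [cl, AddMonoidAlgebra.single_mul_single]

lemma cl_zero {T : Type} : cl (0 : Gm T) = 1 := rfl

/-- shift of a function of weights -/
def shf {T : Type} (g : Gm T) : Module.End ℤ (Gm T → ℤ) where
  toFun h := fun γ => h (γ - g)
  map_add' _ _ := rfl
  map_smul' _ _ := rfl

/-- the group ring acts on the functions of weights -/
noncomputable def act {T : Type} : GR T →ₐ[ℤ] Module.End ℤ (Gm T → ℤ) :=
  AddMonoidAlgebra.lift ℤ (Module.End ℤ (Gm T → ℤ)) (Gm T)
    { toFun := fun g => shf g.toAdd
      map_one' := by ext; simp [shf]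
      map_mul' := fun a b => by
        ext h γ
        simp only [shf, toAdd_mul, LinearMap.coe_mk, AddHom.coe_mk, Module.End.mul_apply]
        congr 1
        abel }

lemma act_cl {T : Type} (g : Gm T) (h : Gm T → ℤ) (γ : Gm T) : act (cl g) h γ = h (γ - g) := by
  simp [act, cl, AddMonoidAlgebra.lift_single, shf]

/-- the function `1` at the weight `0` -/
noncomputable def dl (T : Type) : Gm T → ℤ := by
  classical exact Pi.single 0 1

lemma act_dl {T : Type} (a : GR T) (γ : Gm T) : act a (dl T) γ = a.coeff γ := by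
  classical
  induction a using AddMonoidAlgebra.induction_linear with
  | zero => simp
  | add f g hf hg => simp [map_add, hf, hg]
  | single g r =>
    have h : AddMonoidAlgebra.single g r = r • cl g := by simp [cl, AddMonoidAlgebra.smul_single]
    rw [h, map_smul, LinearMap.smul_apply, Pi.smul_apply, act_cl]
    simp only [dl, Pi.single_apply, sub_eq_zero, cl]
    simp [Finsupp.single_apply, eq_comm]

lemma act_dl_inj {T : Type} {a b : GR T} (h : act a (dl T) = act b (dl T)) : a = b := by
  ext γ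
  rw [← act_dl, ← act_dl, h]

section
variable {σ T : Type} (w : σ → Gm T)

/-- the Hilbert function of a homogeneous subspace -/
noncomputable def hf (L : Submodule ℂ (MvPolynomial σ ℂ)) : Gm T → ℤ := fun γ =>
  (Module.finrank ℂ ↥(L ⊓ weightedHomogeneousSubmodule ℂ w γ) : ℤ)

/-- homogeneous subspaces -/
def Hmg (L : Submodule ℂ (MvPolynomial σ ℂ)) : Prop :=
  ∀ x ∈ L, ∀ γ, weightedHomogeneousComponent w γ x ∈ L

end

section
variable {σ : Type}

/-- the preimage of `L` under the multiplication by `f` -/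
noncomputable def pre (f : MvPolynomial σ ℂ) (L : Submodule ℂ (MvPolynomial σ ℂ)) :
    Submodule ℂ (MvPolynomial σ ℂ) := L.comap (LinearMap.mulLeft ℂ f)

/-- the image of `L` under the multiplication by `f` -/
noncomputable def img (f : MvPolynomial σ ℂ) (L : Submodule ℂ (MvPolynomial σ ℂ)) :
    Submodule ℂ (MvPolynomial σ ℂ) := L.map (LinearMap.mulLeft ℂ f)

/-- `L` is stable under the variables in `A` -/
def Stb (A : Set σ) (L : Submodule ℂ (MvPolynomial σ ℂ)) : Prop := ∀ i ∈ A, ∀ x ∈ L, X i * x ∈ L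

/-- the monomials in the variables in `A` -/
noncomputable def mon (A : Set σ) : Submonoid (MvPolynomial σ ℂ) := Submonoid.closure (X '' A)

/-- the subspace generated by `G` over the polynomials in the variables in `A` -/
noncomputable def gsp (A : Set σ) (G : Set (MvPolynomial σ ℂ)) : Submodule ℂ (MvPolynomial σ ℂ) :=
  Submodule.span ℂ {y | ∃ r ∈ mon A, ∃ g ∈ G, y = r * g}

/-- `L / K` is finitely generated over the polynomials in the variables in `A` -/
def FGm (A : Set σ) (L K : Submodule ℂ (MvPolynomial σ ℂ)) : Prop :=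
  ∃ G : Finset (MvPolynomial σ ℂ), (∀ g ∈ G, g ∈ L) ∧ L ≤ K ⊔ gsp A G

end

section
variable {V E T : Type}

/-- the weights of the variables `η`, `s e` and `p e` -/
def wE (χ : E → T → ℤ) : Option (E ⊕ E) → Gm T
  | none => (0, 2)
  | some (.inl e) => (χ e, 1)
  | some (.inr e) => (-χ e, 1)

/-- the ring of polynomials in `η`, `s e` and `p e` -/
abbrev Ph (E : Type) : Type := MvPolynomial (Option (E ⊕ E)) ℂ

/-- `z e = s e * p e` -/
noncomputable def zz (e : E) : Ph E := X (some (.inl e)) * X (some (.inr e))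

/-- the variables of the edges in `E'` -/
def vr (E' : Finset E) : Set (Option (E ⊕ E)) :=
  {i | ∃ e ∈ E', i = some (.inl e) ∨ i = some (.inr e)}

variable (src tgt : E → V)

/-- the functions in `C` with equal values at the ends of the edges in `F` -/
noncomputable def cF (C : Submodule ℂ (V → ℂ)) (F : Finset E) : Submodule ℂ (V → ℂ) :=
  C ⊓ ⨅ e ∈ F, LinearMap.ker (LinearMap.proj (R := ℂ) (φ := fun _ : V => ℂ) (tgt e) -
    LinearMap.proj (src e))

lemma mem_cF {C : Submodule ℂ (V → ℂ)} {F : Finset E} {c : V → ℂ} :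
    c ∈ cF src tgt C F ↔ c ∈ C ∧ ∀ e ∈ F, c (tgt e) = c (src e) := by
  simp [cF, Submodule.mem_iInf, sub_eq_zero]

variable (χ : E → T → ℤ)

/-- `∏ (1 - [s e]) (1 - [p e])` -/
noncomputable def Dd (E' : Finset E) : GR T :=
  ∏ e ∈ E', ((1 - cl (χ e, 1)) * (1 - cl (-χ e, 1)))

/-- the ideal of Lemma 2 -/
noncomputable def J (E' : Finset E) (C : Submodule ℂ (V → ℂ)) : Ideal (GR T) :=
  Ideal.span {y | ∃ F F' : Finset E, Disjoint F F' ∧ (∀ e, e ∈ E' ↔ e ∈ F ∨ e ∈ F') ∧ ∃ r : ℕ,
    r + Module.finrank ℂ (cF src tgt C F) = Module.finrank ℂ C ∧ ∃ ε : E → ℤˣ,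
    y = (1 - cl ((0 : T → ℤ), 2)) ^ r * ∏ e ∈ F', (1 - cl ((ε e : ℤ) • χ e, 1))}

/-- the functions vanishing at `b₀` -/
noncomputable def C0 (b₀ : V) : Submodule ℂ (V → ℂ) :=
  LinearMap.ker (LinearMap.proj (R := ℂ) (φ := fun _ : V => ℂ) b₀)

/-- the linear form of a character -/
noncomputable def lin [Fintype T] (a : T → ℤ) : MvPolynomial T ℂ := ∑ t, C (a t : ℂ) * X t

/-- the ideal of the cuts -/
noncomputable def cutI [Fintype T] [Fintype E] [DecidableEq V] (b₀ : V) : Ideal (MvPolynomial T ℂ) :=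
  Ideal.span {y | ∃ S : Finset V, S.Nonempty ∧ b₀ ∉ S ∧
    y = ∏ e with ¬ (tgt e ∈ S ↔ src e ∈ S), lin (χ e)}

end

end Vale.Agent.P291.RG
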