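import Mathlib
import Vale.Agent.P291.T.QF

set_option autoImplicit false

/-! Shared definitions for regular `ν` implies `Reg` (helper827). -/

namespace Vale.Agent.P291.RG

open MvPolynomial

noncomputable section

/-! ### Part 1: characters of homogeneous ideals -/

section Gr

variable {σ M Q : Type} [AddCommGroup M] [CommRing Q]

/-- homogeneous piece of degree `n` -/
def Pc (w : σ → M × ℤ) (n : M × ℤ) : Submodule ℂ (MvPolynomial σ ℂ) :=
  weightedHomogeneousSubmodule ℂ w n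

/-- homogeneous ideals -/
def HomI (w : σ → M × ℤ) (I : Ideal (MvPolynomial σ ℂ)) : Prop :=
  ∀ f ∈ I, ∀ n, weightedHomogeneousComponent w n f ∈ I

/-- dimension of the piece of degree `n` of an ideal -/
def dm (w : σ → M × ℤ) (I : Ideal (MvPolynomial σ ℂ)) (n : M × ℤ) : ℕ :=
  Module.finrank ℂ ↥(I.restrictScalars ℂ ⊓ Pc w n)

/-- the character `∑_d q^d ∑_m dim I_(m,d) e(m)` -/
def ch (w : σ → M × ℤ) (e : M → Q) (I : Ideal (MvPolynomial σ ℂ)) : PowerSeries Q :=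
  PowerSeries.mk fun d => ∑ᶠ m : M, (dm w I (m, (d : ℤ)) : Q) * e m

/-- `X · R' ⊆ R` -/
def Kl (X : Set (MvPolynomial σ ℂ)) (R R' : Ideal (MvPolynomial σ ℂ)) : Prop :=
  ∀ f ∈ X, ∀ g ∈ R', f * g ∈ R

/-- pairs `R ≤ R'` of homogeneous ideals with `X · R' ⊆ R` -/
def Pr (w : σ → M × ℤ) (X : Set (MvPolynomial σ ℂ)) (R R' : Ideal (MvPolynomial σ ℂ)) : Prop :=
  R ≤ R' ∧ HomI w R ∧ HomI w R' ∧ Kl X R R'

/-- `e` is a character -/
def E1 (e : M → Q) : Prop := e 0 = 1 ∧ ∀ a b, e (a + b) = e a * e b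

/-- the factor `1 - q^k e(a)` -/
def fc (e : M → Q) (a : M) (k : ℕ) : PowerSeries Q := 1 - PowerSeries.X ^ k * PowerSeries.C (e a)

/-- `(1 - q)^k Q[q]` -/
def Dv (Q : Type) [CommRing Q] (k : ℕ) : Submodule (Polynomial Q) (PowerSeries Q) :=
  Submodule.span (Polynomial Q) {(1 - PowerSeries.X) ^ k}

end Gr

/-! ### Part 2: the rings `S` and `Z` of a set of edges -/

section Ed

variable {E M Q : Type} [Fintype E] [DecidableEq E] [AddCommGroup M] [CommRing Q]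

/-- `S`: variables `s_e = X (some (e, true))`, `p_e = X (some (e, false))`, `τ = X none` -/
abbrev SS (E : Type) : Type := MvPolynomial (Option (E × Bool)) ℂ
/-- `Z`: variables `z_e = X (some e)`, `τ = X none` -/
abbrev ZZ (E : Type) : Type := MvPolynomial (Option E) ℂ

/-- weights on `S` -/
def wS (χ : E → M) : Option (E × Bool) → M × ℤ
  | none => (0, 1)
  | some (a, true) => (χ a, 1)
  | some (a, false) => (-χ a, 1)

/-- weights on `Z` -/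
def wZ (E M : Type) [AddCommGroup M] : Option E → M × ℤ
  | none => (0, 1)
  | some _ => (0, 2)

/-- `z_e ↦ s_e p_e`, `τ ↦ τ` -/
def io : ZZ E →ₐ[ℂ] SS E :=
  aeval fun o => match o with
    | none => X none
    | some a => X (some (a, true)) * X (some (a, false))

/-- a linear form in the `z_e` -/
def lin (l : E → ℂ) : ZZ E := ∑ a, C (l a) * X (some a)

/-- families of ideals of `Z`, the graded pieces of torus-homogeneous ideals (edges in `A`) -/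
def Fam (A : Set E) (F : (E → ℤ) → Ideal (ZZ E)) : Prop :=
  ∀ u : E → ℤ, ∀ a ∈ A,
    (0 ≤ u a → F u ≤ F (u + Pi.single a 1) ∧ ∀ g ∈ F (u + Pi.single a 1), X (some a) * g ∈ F u) ∧
    (u a ≤ 0 → F u ≤ F (u - Pi.single a 1) ∧ ∀ g ∈ F (u - Pi.single a 1), X (some a) * g ∈ F u)

/-- stability of a family beyond `U` -/
def Stb (A : Set E) (U : ℤ) (F : (E → ℤ) → Ideal (ZZ E)) : Prop :=
  ∀ u : E → ℤ, ∀ a ∈ A, (U ≤ u a → F (u + Pi.single a 1) = F u) ∧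
    (u a ≤ -U → F (u - Pi.single a 1) = F u)

/-- pairs of families -/
def PF (M : Type) [AddCommGroup M] (A : Set E) (U : ℤ) (X : Set (ZZ E))
    (F F' : (E → ℤ) → Ideal (ZZ E)) : Prop :=
  Fam A F ∧ Fam A F' ∧ Stb A U F ∧ Stb A U F' ∧ ∀ u, Pr (wZ E M) X (F u) (F' u)

/-- `∑_k q^|k| e(kx) G(k)` -/
def s1 (e : M → Q) (x : M) (G : ℤ → PowerSeries Q) : PowerSeries Q :=
  PowerSeries.mk fun d => ∑ k ∈ Finset.Icc (-(d : ℤ)) d,
    e (k • x) * PowerSeries.coeff (d - k.natAbs) (G k)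

/-- iterated sum over the coordinates in a list of edges -/
def tot (e : M → Q) (χ : E → M) : List E → ((E → ℤ) → PowerSeries Q) → (E → ℤ) → PowerSeries Q
  | [], F, u => F u
  | a :: l, F, u => s1 e (χ a) fun k => tot e χ l F (Function.update u a k)

/-- coordinate subspace -/
def co (D : Finset E) : Submodule ℂ (E → ℂ) :=
  Submodule.span ℂ {v | ∃ a ∈ D, v = Pi.single a 1}

/-- `dim (Λ + ⟨z_e : e ∈ D⟩)` -/
def rho (Λ : Submodule ℂ (E → ℂ)) (D : Finset E) : ℕ := Module.finrank ℂ ↥(Λ ⊔ co D)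

/-- products of `1 - e(χ)` over sets of edges whose complement has rank `< r` vanish -/
def VP (e : M → Q) (χ : E → M) (Λ : Submodule ℂ (E → ℂ)) (r : ℕ) : Prop :=
  ∀ D : Finset E, rho Λ D < r + D.card → ∏ a ∈ D, (1 - e (χ a)) = 0

/-- the normalizing factor of `S` -/
def nS (e : M → Q) (χ : E → M) : PowerSeries Q :=
  fc e 0 1 * ∏ a, fc e (χ a) 1 * fc e (-χ a) 1

end Ed

/-! ### Part 3: points of `N ⊕ N^*` -/

section Pt

open Vale.Agent.P291.Q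

/-- points of `N ⊕ N^*` -/
structure Pt (D : QData) where
  X : (a : D.A) → Matrix (Fin (D.v (D.tgt a))) (Fin (D.v (D.src a))) ℂ
  X' : (a : D.A) → Matrix (Fin (D.v (D.src a))) (Fin (D.v (D.tgt a))) ℂ
  Y : (i : D.I) → Matrix (Fin (D.w i)) (Fin (D.v i)) ℂ
  Y' : (i : D.I) → Matrix (Fin (D.v i)) (Fin (D.w i)) ℂ

/-- the moment map `⟨μ(s, p), ξ⟩ = ⟨p, ξ s⟩` -/
def mu {D : QData} (x : Pt D) (ξ : (i : D.I) → Matrix (Fin (D.v i)) (Fin (D.v i)) ℂ) : ℂ :=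
  ∑ a, (x.X' a * (ξ (D.tgt a) * x.X a - x.X a * ξ (D.src a))).trace -
    ∑ i, (x.Y' i * (x.Y i * ξ i)).trace

/-- the action of `G = ∏ GL(V i)` on `N ⊕ N^*` -/
def act {D : QData} (g : (i : D.I) → GL (Fin (D.v i)) ℂ) (x : Pt D) : Pt D where
  X a := (g (D.tgt a)).val * x.X a * (g (D.src a))⁻¹.val
  X' a := (g (D.src a)).val * x.X' a * (g (D.tgt a))⁻¹.val
  Y i := x.Y i * (g i)⁻¹.val
  Y' i := (g i).val * x.Y' i

/-- subspaces of `⊕ V i` which are stable under all arrows -/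
def Inv {D : QData} (x : Pt D) (U : (i : D.I) → Submodule ℂ (Fin (D.v i) → ℂ)) : Prop :=
  (∀ a, ∀ z ∈ U (D.src a), (x.X a).mulVec z ∈ U (D.tgt a)) ∧
    ∀ a, ∀ z ∈ U (D.tgt a), (x.X' a).mulVec z ∈ U (D.src a)

/-- `ν · dim U` -/
def dn {D : QData} (ν : D.I → ℤ) (U : (i : D.I) → Submodule ℂ (Fin (D.v i) → ℂ)) : ℤ :=
  ∑ i, ν i * (Module.finrank ℂ ↥(U i) : ℤ)

/-- `ν`-semistable points -/
def Semi {D : QData} (ν : D.I → ℤ) (x : Pt D) : Prop :=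
  ∀ U, Inv x U → ((∀ i, ∀ z ∈ U i, (x.Y i).mulVec z = 0) → dn ν U ≤ 0) ∧
    ((∀ i z, (x.Y' i).mulVec z ∈ U i) → dn ν U ≤ ∑ i, ν i * D.v i)

/-- `ν`-stable points -/
def Stab {D : QData} (ν : D.I → ℤ) (x : Pt D) : Prop :=
  ∀ U, Inv x U →
    ((∀ i, ∀ z ∈ U i, (x.Y i).mulVec z = 0) → (∃ i, U i ≠ ⊥) → dn ν U < 0) ∧
    ((∀ i z, (x.Y' i).mulVec z ∈ U i) → (∃ i, U i ≠ ⊤) → dn ν U < ∑ i, ν i * D.v i)

/-- regular characters: on `μ⁻¹(0)` semistable points are stable and `G` acts freely on them -/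
def Regular (D : QData) (ν : D.I → ℤ) : Prop :=
  ∀ x : Pt D, (∀ ξ, mu x ξ = 0) → Semi ν x → Stab ν x ∧ ∀ g, act g x = x → g = 1

/-- forget the framing -/
def unf (D : QData) : QData := {D with w := fun _ => 0, tw := fun _ k => k.elim0}

/-- coordinates of `N` -/
abbrev EE (D : QData) : Type :=
  (Σ a : D.A, Fin (D.v (D.tgt a)) × Fin (D.v (D.src a))) ⊕ (Σ i : D.I, Fin (D.w i) × Fin (D.v i))

/-- weights of the coordinates of `N` -/
def chi {D : QData} {C : Type} [CommRing C] (x : B D → C) (t : Fl D → C) : EE D → C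
  | .inl ⟨a, s, r⟩ => x ⟨D.tgt a, s⟩ - x ⟨D.src a, r⟩ + t (.inl a)
  | .inr ⟨i, k, r⟩ => t (.inr ⟨i, k⟩) - x ⟨i, r⟩

/-- `⟨χ_e, b⟩` -/
def inc {D : QData} [DecidableEq (B D)] (b : B D) : EE D → ℂ
  | .inl ⟨a, s, r⟩ => (if b = ⟨D.tgt a, s⟩ then 1 else 0) - (if b = ⟨D.src a, r⟩ then 1 else 0)
  | .inr ⟨i, _, r⟩ => -(if b = ⟨i, r⟩ then 1 else 0)

/-- the matrix entries of the moment map, polynomials on `N ⊕ N^*` -/
def mp {D : QData} [DecidableEq (B D)] (b b' : B D) : SS (EE D) :=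
  ((∑ a : D.A, ∑ r, ∑ s, ∑ c, if (⟨D.tgt a, r⟩ : B D) = b ∧ (⟨D.tgt a, s⟩ : B D) = b' then
      X (some (Sum.inl ⟨a, r, c⟩, true)) * X (some (Sum.inl ⟨a, s, c⟩, false)) else 0) -
    ∑ a : D.A, ∑ r, ∑ s, ∑ c, if (⟨D.src a, r⟩ : B D) = b ∧ (⟨D.src a, s⟩ : B D) = b' then
      X (some (Sum.inl ⟨a, c, r⟩, false)) * X (some (Sum.inl ⟨a, c, s⟩, true)) else 0) -
    ∑ i : D.I, ∑ r, ∑ s, ∑ k, if (⟨i, r⟩ : B D) = b ∧ (⟨i, s⟩ : B D) = b' then
      X (some (Sum.inr ⟨i, k, r⟩, false)) * X (some (Sum.inr ⟨i, k, s⟩, true)) else 0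

end Pt

end

end Vale.Agent.P291.RG
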