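import Vale.Agent.P291.RG.Base

set_option autoImplicit false

/-! From the `K`-theoretic relation to the ideal of the cuts (helper827). -/

namespace Vale.Agent.P291.RG

open MvPolynomial

noncomputable section

namespace X5

section Ex

variable {A : Type} [CommRing A] [Algebra ℚ A]

/-- `exp (a ε)` -/
def ex (a : A) : PowerSeries A := PowerSeries.rescale a (PowerSeries.exp A)

lemma ex_add (a b : A) : ex (a + b) = ex a * ex b := (PowerSeries.exp_mul_exp_eq_exp_add a b).symm

lemma ex_zero : ex (0 : A) = 1 := by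
  ext n
  rcases n with _ | n
  · simp [ex]
  · simp [ex, PowerSeries.coeff_one]

lemma one_sub_ex (a : A) : ∃ v : PowerSeries A, IsUnit v ∧
    1 - ex a = PowerSeries.X * PowerSeries.C a * v := by
  refine ⟨PowerSeries.mk fun n => -(a ^ n * algebraMap ℚ A (1 / (n + 1).factorial)), ?_, ?_⟩
  · rw [PowerSeries.isUnit_iff_constantCoeff]
    simp
  · ext n
    rcases n with _ | n
    · have h0 : PowerSeries.coeff 0 (ex a) = 1 := by
        rw [ex, PowerSeries.coeff_rescale, PowerSeries.coeff_exp]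
        simp
      rw [map_sub, h0, mul_assoc]
      simp
    · rw [mul_assoc, PowerSeries.coeff_succ_X_mul, PowerSeries.coeff_C_mul, PowerSeries.coeff_mk]
      simp only [ex, map_sub, PowerSeries.coeff_rescale, PowerSeries.coeff_exp,
        PowerSeries.coeff_one, Nat.add_eq_zero_iff, one_ne_zero, and_false, if_false, zero_sub]
      ring

lemma prod_ex {ι : Type} (s : Finset ι) (a : ι → A) : ∃ v : PowerSeries A, IsUnit v ∧
    ∏ i ∈ s, (1 - ex (a i)) = PowerSeries.X ^ s.card * PowerSeries.C (∏ i ∈ s, a i) * v := by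
  choose v hv h using fun i => one_sub_ex (a i)
  refine ⟨∏ i ∈ s, v i, ?_, ?_⟩
  · exact IsUnit.prod_iff.2 fun i _ => hv i
  · rw [Finset.prod_congr rfl fun i _ => h i, Finset.prod_mul_distrib, Finset.prod_mul_distrib,
      Finset.prod_const, map_prod]

lemma prod_ex_eq_zero {ι : Type} (s : Finset ι) (a : ι → A) :
    ∏ i ∈ s, (1 - ex (a i)) = 0 ↔ ∏ i ∈ s, a i = 0 := by
  obtain ⟨v, hv, h⟩ := prod_ex s a
  rw [h]
  constructor
  · intro h0
    rw [hv.mul_left_eq_zero] at h0
    have h1 := congrArg (PowerSeries.coeff s.card) h0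
    rw [mul_comm, PowerSeries.coeff_mul_X_pow'] at h1
    simpa using h1
  · intro h0
    rw [h0]
    simp

end Ex

section Ph

variable {T A : Type} [CommRing A] [Algebra ℚ A] (l : (T → ℤ) →+ A)

/-- the unit `1 - h` -/
def uh (Q : Type) [CommRing Q] : (PowerSeries Q)ˣ :=
  (PowerSeries.isUnit_iff_constantCoeff.2 (by simp) :
    IsUnit (1 - PowerSeries.X : PowerSeries Q)).unit

lemma uh_val (Q : Type) [CommRing Q] : (uh Q : PowerSeries Q) = 1 - PowerSeries.X := rfl

/-- `[(a, k)] ↦ exp (l a ε) (1 - h) ^ k` -/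
def Ph5 : GR T →ₐ[ℤ] PowerSeries (PowerSeries A) :=
  AddMonoidAlgebra.lift ℤ (PowerSeries (PowerSeries A)) (Gm T)
    { toFun := fun g => PowerSeries.C (ex (l g.toAdd.1)) *
        ((uh (PowerSeries A) ^ g.toAdd.2 : (PowerSeries (PowerSeries A))ˣ) :
          PowerSeries (PowerSeries A))
      map_one' := by simp [ex_zero]
      map_mul' := fun a b => by
        simp only [toAdd_mul, Prod.fst_add, Prod.snd_add, map_add, ex_add, map_mul, zpow_add,
          Units.val_mul]
        ring }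

lemma Ph5_cl (a : T → ℤ) (k : ℕ) : Ph5 l (cl (a, (k : ℤ))) =
    PowerSeries.C (ex (l a)) * (1 - PowerSeries.X) ^ k := by
  simp only [Ph5, cl, AddMonoidAlgebra.lift_single]
  refine (one_smul ℤ _).trans ?_
  change PowerSeries.C (ex (l a)) * ((uh (PowerSeries A) ^ (k : ℤ) : (PowerSeries (PowerSeries A))ˣ) :
          PowerSeries (PowerSeries A)) = _
  rw [zpow_natCast, Units.val_pow_eq_pow_val, uh_val]

end Ph

section Cut

variable {V E T : Type} [Fintype V] [DecidableEq V] [Fintype E] [DecidableEq E] [Fintype T]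
  (src tgt : E → V) (χ : E → T → ℤ) (b₀ : V)

lemma lin_add (a b : T → ℤ) : lin (a + b) = lin a + lin b := by
  simp [lin, add_mul, Finset.sum_add_distrib]

lemma lin_zero : lin (0 : T → ℤ) = 0 := by simp [lin]

/-- the linear forms modulo the cuts -/
def lq : (T → ℤ) →+ MvPolynomial T ℂ ⧸ cutI src tgt χ b₀ where
  toFun a := Ideal.Quotient.mk _ (lin a)
  map_zero' := by rw [lin_zero, map_zero]
  map_add' a b := by rw [lin_add, map_add]

omit [DecidableEq V] in
lemma finrank_C0 : Module.finrank ℂ (C0 (V := V) b₀) + 1 = Fintype.card V := by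
  have h := LinearMap.finrank_range_add_finrank_ker
    (LinearMap.proj (R := ℂ) (φ := fun _ : V => ℂ) b₀)
  have h1 : LinearMap.range (LinearMap.proj (R := ℂ) (φ := fun _ : V => ℂ) b₀) = ⊤ :=
    LinearMap.range_eq_top.2 (LinearMap.proj_surjective b₀)
  rw [h1, finrank_top, Module.finrank_self, Module.finrank_pi] at h
  rw [C0, ← h, add_comm]

/-- a nonzero function with equal values at the ends of the edges not in `D` gives a cut -/
lemma cut_mem (D : Finset E) (c : V → ℂ) (hc : c ∈ C0 b₀) (h0 : c ≠ 0)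
    (h : ∀ e, e ∉ D → c (tgt e) = c (src e)) (s : E → ℤˣ) :
    ∏ e ∈ D, lq src tgt χ b₀ ((s e : ℤ) • χ e) = 0 := by
  classical
  obtain ⟨b1, hb1⟩ := Function.ne_iff.1 h0
  have hc0 : c b₀ = 0 := hc
  let S : Finset V := Finset.univ.filter fun b => c b = c b1
  have hS : S.Nonempty := ⟨b1, by simp [S]⟩
  have hb0 : b₀ ∉ S := by
    simp only [S, Finset.mem_filter, Finset.mem_univ, true_and, hc0]
    intro h
    exact hb1 h.symm
  have hsub : (Finset.univ.filter fun e => ¬ (tgt e ∈ S ↔ src e ∈ S)) ⊆ D := by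
    intro e he
    by_contra hD
    have h2 := h e hD
    simp only [S, Finset.mem_filter, Finset.mem_univ, true_and, h2, iff_self, not_true_eq_false]
      at he
  have h3 : ∏ e ∈ D, lq src tgt χ b₀ (χ e) = 0 := by
    rw [← Finset.prod_sdiff hsub]
    have h4 : ∏ e with ¬ (tgt e ∈ S ↔ src e ∈ S), lq src tgt χ b₀ (χ e) = 0 := by
      have h5 : (∏ e with ¬ (tgt e ∈ S ↔ src e ∈ S), lin (χ e)) ∈ cutI src tgt χ b₀ :=
        Ideal.subset_span ⟨S, hS, hb0, rfl⟩
      have h6 := Ideal.Quotient.eq_zero_iff_mem.2 h5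
      rw [map_prod] at h6
      exact h6
    rw [h4, mul_zero]
  have h7 : ∀ e, lq src tgt χ b₀ ((s e : ℤ) • χ e) = ((s e : ℤ) : _ ⧸ cutI src tgt χ b₀) *
      lq src tgt χ b₀ (χ e) := by
    intro e
    rw [map_zsmul, zsmul_eq_mul]
  rw [Finset.prod_congr rfl fun e _ => h7 e, Finset.prod_mul_distrib, h3, mul_zero]

/-- if the product over `D ⊆ F'` does not vanish, then `dim C_F ≤ #(F' ∖ D)` -/
lemma finrank_cF_le (F F' D : Finset E) (hE : ∀ e, e ∈ F ∨ e ∈ F') (s : E → ℤˣ)
    (h : ∏ e ∈ D, lq src tgt χ b₀ ((s e : ℤ) • χ e) ≠ 0) :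
    Module.finrank ℂ (cF src tgt (C0 b₀) F) ≤ (F' \ D).card := by
  by_contra hlt
  rw [not_le] at hlt
  let φ : cF src tgt (C0 b₀) F →ₗ[ℂ] ((F' \ D : Finset E) → ℂ) :=
    { toFun := fun c e => c.1 (tgt e.1) - c.1 (src e.1)
      map_add' := fun c c' => by
        ext e
        simp only [Submodule.coe_add, Pi.add_apply]
        ring
      map_smul' := fun r c => by
        ext e
        simp only [Submodule.coe_smul, Pi.smul_apply, RingHom.id_apply, smul_eq_mul]
        ring }
  have h1 : LinearMap.ker φ ≠ ⊥ := by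
    apply LinearMap.ker_ne_bot_of_finrank_lt
    rw [Module.finrank_pi, Fintype.card_coe]
    exact hlt
  obtain ⟨c, hc, hc0⟩ := (Submodule.ne_bot_iff _).1 h1
  have hcF := (mem_cF src tgt).1 c.2
  apply h
  refine cut_mem src tgt χ b₀ D c.1 hcF.1 (fun h0 => hc0 (Subtype.ext h0)) (fun e he => ?_) s
  rcases hE e with h2 | h2
  · exact hcF.2 e h2
  · have h3 : e ∈ F' \ D := Finset.mem_sdiff.2 ⟨h2, he⟩
    exact sub_eq_zero.1 (congrFun (LinearMap.mem_ker.1 hc) ⟨e, h3⟩)

/-- the image of the ideal `J` -/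
lemma Ph5_J {a : GR T} (ha : a ∈ J src tgt χ Finset.univ (C0 b₀)) :
    PowerSeries.X ^ Module.finrank ℂ (C0 (V := V) b₀) ∣ Ph5 (lq src tgt χ b₀) a := by
  set l := lq src tgt χ b₀ with hl
  set N := Module.finrank ℂ (C0 (V := V) b₀) with hN
  have hle : J src tgt χ Finset.univ (C0 b₀) ≤ Ideal.comap (Ph5 l).toRingHom
      (Ideal.span {(PowerSeries.X : PowerSeries (PowerSeries _)) ^ N}) := by
    rw [J, Ideal.span_le]
    rintro y ⟨F, F', -, hFF, r, hr, s, rfl⟩
    have hE : ∀ e, e ∈ F ∨ e ∈ F' := fun e => (hFF e).1 (Finset.mem_univ e)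
    rw [SetLike.mem_coe, Ideal.mem_comap, Ideal.mem_span_singleton]
    change PowerSeries.X ^ N ∣ Ph5 l _
    rw [map_mul, map_pow, map_prod]
    have e1 : Ph5 l (1 - cl ((0 : T → ℤ), 2)) = PowerSeries.X * (2 - PowerSeries.X) := by
      have h := Ph5_cl l (0 : T → ℤ) 2
      rw [map_sub, map_one]
      change 1 - Ph5 l (cl ((0 : T → ℤ), ((2 : ℕ) : ℤ))) = _
      rw [h, map_zero, ex_zero, map_one]
      ring
    have e2 : ∀ e, Ph5 l (1 - cl ((s e : ℤ) • χ e, 1)) =
        PowerSeries.C (1 - ex (l ((s e : ℤ) • χ e))) +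
          PowerSeries.X * PowerSeries.C (ex (l ((s e : ℤ) • χ e))) := by
      intro e
      have h := Ph5_cl l ((s e : ℤ) • χ e) 1
      rw [map_sub, map_one]
      change 1 - Ph5 l (cl ((s e : ℤ) • χ e, ((1 : ℕ) : ℤ))) = _
      rw [h, map_sub, map_one]
      ring
    rw [e1, Finset.prod_congr rfl fun e _ => e2 e, Finset.prod_add, Finset.mul_sum]
    refine Finset.dvd_sum fun D hD => ?_
    rw [Finset.mem_powerset] at hD
    by_cases h : ∏ e ∈ D, l ((s e : ℤ) • χ e) = 0
    · have h1 : ∏ e ∈ D, PowerSeries.C (1 - ex (l ((s e : ℤ) • χ e))) =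
          (0 : PowerSeries (PowerSeries _)) := by
        rw [← map_prod, (prod_ex_eq_zero D fun e => l ((s e : ℤ) • χ e)).2 h, map_zero]
      rw [h1, zero_mul, mul_zero]
      exact dvd_zero _
    · have h2 := finrank_cF_le src tgt χ b₀ F F' D hE s h
      rw [Finset.prod_mul_distrib, Finset.prod_const, mul_pow]
      have h3 : N ≤ r + (F' \ D).card := by omega
      refine (pow_dvd_pow _ h3).trans ?_
      rw [pow_add]
      refine ⟨(2 - PowerSeries.X) ^ r * (∏ e ∈ D, PowerSeries.C (1 - ex (l ((s e : ℤ) • χ e)))) *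
        ∏ e ∈ F' \ D, PowerSeries.C (ex (l ((s e : ℤ) • χ e))), ?_⟩
      ring
  have h := hle ha
  rw [Ideal.mem_comap, Ideal.mem_span_singleton] at h
  exact h

end Cut

end X5

open X5 in
theorem cut_of_J {V E T : Type} [Fintype V] [DecidableEq V] [Fintype E] [DecidableEq E] [Fintype T]
    (src tgt : E → V) (χ : E → T → ℤ) (b₀ : V) {n : Type} [Fintype n] (α : n → T → ℤ) {a : GR T}
    (ha : a ∈ J src tgt χ Finset.univ (C0 b₀))
    (h : (∏ j, (1 - cl (α j, 2))) * (1 - cl ((0 : T → ℤ), 2)) ^ (Fintype.card V - 1) =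
      (1 - cl ((0 : T → ℤ), 2)) * a) :
    ∏ j, lin (α j) ∈ cutI src tgt χ b₀ := by
  classical
  set l := lq src tgt χ b₀ with hl
  have hN := finrank_C0 (V := V) b₀
  set N := Module.finrank ℂ (C0 (V := V) b₀) with hN'
  have hcard : Fintype.card V - 1 = N := by omega
  obtain ⟨g, hg⟩ := Ph5_J src tgt χ b₀ ha
  have e1 : Ph5 l (1 - cl ((0 : T → ℤ), 2)) = PowerSeries.X * (2 - PowerSeries.X) := by
    have h := Ph5_cl l (0 : T → ℤ) 2
    rw [map_sub, map_one]
    change 1 - Ph5 l (cl ((0 : T → ℤ), ((2 : ℕ) : ℤ))) = _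
    rw [h, map_zero, ex_zero, map_one]
    ring
  have e2 : ∀ j, Ph5 l (1 - cl (α j, 2)) =
      1 - PowerSeries.C (ex (l (α j))) * (1 - PowerSeries.X) ^ 2 := by
    intro j
    have h := Ph5_cl l (α j) 2
    rw [map_sub, map_one]
    change 1 - Ph5 l (cl (α j, ((2 : ℕ) : ℤ))) = _
    rw [h]
  have h1 := congrArg (Ph5 l) h
  rw [hcard, map_mul, map_mul, map_pow, map_prod, e1, hg, Finset.prod_congr rfl fun j _ => e2 j]
    at h1
  have h2 : (PowerSeries.X : PowerSeries (PowerSeries _)) ^ N *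
      ((∏ j, (1 - PowerSeries.C (ex (l (α j))) * (1 - PowerSeries.X) ^ 2)) *
        (2 - PowerSeries.X) ^ N) =
      PowerSeries.X ^ N * (PowerSeries.X * ((2 - PowerSeries.X) * g)) := by
    rw [mul_pow] at h1
    linear_combination h1
  have h3 := PowerSeries.X_pow_mul_cancel h2
  have h4 := congrArg PowerSeries.constantCoeff h3
  simp only [map_mul, map_prod, map_sub, map_one, map_pow, PowerSeries.constantCoeff_C,
    PowerSeries.constantCoeff_X, sub_zero, one_pow, mul_one, zero_mul, map_ofNat] at h4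
  have hu : IsUnit ((2 : PowerSeries (MvPolynomial T ℂ ⧸ cutI src tgt χ b₀)) ^ N) := by
    refine IsUnit.pow N ?_
    have h6 := (IsUnit.mk0 (2 : ℚ) (by norm_num)).map
      (algebraMap ℚ (PowerSeries (MvPolynomial T ℂ ⧸ cutI src tgt χ b₀)))
    rwa [map_ofNat] at h6
  rw [hu.mul_left_eq_zero, prod_ex_eq_zero] at h4
  have h5 : Ideal.Quotient.mk (cutI src tgt χ b₀) (∏ j, lin (α j)) = 0 := by
    rw [map_prod]
    exact h4
  exact Ideal.Quotient.eq_zero_iff_mem.1 h5

end

end Vale.Agent.P291.RG
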