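import Vale.Agent.P291.RG.Base

set_option autoImplicit false

/-! Homogeneous, stable and finitely generated subspaces. -/

namespace Vale.Agent.P291.RG.F

open MvPolynomial

section graded
variable {σ T : Type} {w : σ → Gm T}

lemma comp_mul {f : MvPolynomial σ ℂ} {g : Gm T} (hf : IsWeightedHomogeneous w f g)
    (x : MvPolynomial σ ℂ) (γ : Gm T) :
    weightedHomogeneousComponent w (g + γ) (f * x) = f * weightedHomogeneousComponent w γ x := by
  classical
  let _ := weightedGradedAlgebra ℂ w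
  have h := DirectSum.coe_decompose_mul_add_of_left_mem
    (𝒜 := weightedHomogeneousSubmodule ℂ w) (i := g) (j := γ) (a := f) (b := x)
    ((mem_weightedHomogeneousSubmodule ℂ w g f).2 hf)
  have e : ∀ (φ : MvPolynomial σ ℂ) (m : Gm T),
      ((DirectSum.decompose (weightedHomogeneousSubmodule ℂ w) φ m : MvPolynomial σ ℂ)) =
        weightedHomogeneousComponent w m φ := fun φ m =>
    weightedDecomposition.decompose'_apply ℂ w φ m
  rw [e, e] at h
  exact h

lemma comp_mul' {f : MvPolynomial σ ℂ} {g : Gm T} (hf : IsWeightedHomogeneous w f g)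
    (x : MvPolynomial σ ℂ) (γ : Gm T) :
    weightedHomogeneousComponent w γ (f * x) =
      f * weightedHomogeneousComponent w (γ - g) x := by
  rw [← comp_mul hf, add_sub_cancel]

lemma Hmg_sup {L M : Submodule ℂ (MvPolynomial σ ℂ)} (hL : Hmg w L) (hM : Hmg w M) :
    Hmg w (L ⊔ M) := by
  intro x hx γ
  obtain ⟨a, ha, b, hb, rfl⟩ := Submodule.mem_sup.1 hx
  rw [map_add]
  exact Submodule.add_mem_sup (hL a ha γ) (hM b hb γ)

lemma Hmg_inf {L M : Submodule ℂ (MvPolynomial σ ℂ)} (hL : Hmg w L) (hM : Hmg w M) :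
    Hmg w (L ⊓ M) := fun x hx γ => ⟨hL x hx.1 γ, hM x hx.2 γ⟩

lemma Hmg_pre {f : MvPolynomial σ ℂ} {g : Gm T} (hf : IsWeightedHomogeneous w f g)
    {L : Submodule ℂ (MvPolynomial σ ℂ)} (hL : Hmg w L) : Hmg w (pre f L) := by
  intro x hx γ
  simp only [pre, Submodule.mem_comap, LinearMap.mulLeft_apply] at hx ⊢
  rw [← comp_mul hf]
  exact hL _ hx _

lemma Hmg_img {f : MvPolynomial σ ℂ} {g : Gm T} (hf : IsWeightedHomogeneous w f g)
    {L : Submodule ℂ (MvPolynomial σ ℂ)} (hL : Hmg w L) : Hmg w (img f L) := by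
  rintro _ ⟨x, hx, rfl⟩ γ
  simp only [LinearMap.mulLeft_apply]
  rw [comp_mul' hf]
  exact ⟨_, hL x hx _, rfl⟩

lemma Hmg_span {S : Set (MvPolynomial σ ℂ)} (h : ∀ x ∈ S, ∃ γ, IsWeightedHomogeneous w x γ) :
    Hmg w (Submodule.span ℂ S) := by
  classical
  intro x hx γ
  induction hx using Submodule.span_induction with
  | mem x hx =>
    obtain ⟨γ', h'⟩ := h x hx
    by_cases e : γ = γ'
    · subst e
      rw [IsWeightedHomogeneous.weightedHomogeneousComponent_same h']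
      exact Submodule.subset_span hx
    · rw [IsWeightedHomogeneous.weightedHomogeneousComponent_ne _ h' e]
      exact zero_mem _
  | zero => simp
  | add x y _ _ hx hy => rw [map_add]; exact add_mem hx hy
  | smul c x _ hx => rw [map_smul]; exact Submodule.smul_mem _ _ hx

lemma mon_homog {A : Set σ} {r : MvPolynomial σ ℂ} (hr : r ∈ mon A) :
    ∃ γ, IsWeightedHomogeneous w r γ := by
  induction hr using Submonoid.closure_induction with
  | mem x hx =>
    obtain ⟨i, _, rfl⟩ := hx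
    exact ⟨_, isWeightedHomogeneous_X ℂ w i⟩
  | one => exact ⟨0, isWeightedHomogeneous_one ℂ w⟩
  | mul x y _ _ hx hy =>
    obtain ⟨a, ha⟩ := hx
    obtain ⟨b, hb⟩ := hy
    exact ⟨_, ha.mul hb⟩

lemma Hmg_gsp {A : Set σ} {G : Set (MvPolynomial σ ℂ)}
    (h : ∀ x ∈ G, ∃ γ, IsWeightedHomogeneous w x γ) : Hmg w (gsp A G) := by
  refine Hmg_span ?_
  rintro _ ⟨r, hr, g, hg, rfl⟩
  obtain ⟨a, ha⟩ := mon_homog (w := w) hr
  obtain ⟨b, hb⟩ := h g hg
  exact ⟨_, ha.mul hb⟩

end graded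

section stable
variable {σ : Type} {A B : Set σ}

lemma mem_pre {f x : MvPolynomial σ ℂ} {L : Submodule ℂ (MvPolynomial σ ℂ)} :
    x ∈ pre f L ↔ f * x ∈ L := Iff.rfl

lemma mem_img {f x : MvPolynomial σ ℂ} {L : Submodule ℂ (MvPolynomial σ ℂ)} :
    x ∈ img f L ↔ ∃ y ∈ L, f * y = x := Iff.rfl

lemma Stb_sup {L M : Submodule ℂ (MvPolynomial σ ℂ)} (hL : Stb A L) (hM : Stb A M) :
    Stb A (L ⊔ M) := by
  intro i hi x hx
  obtain ⟨a, ha, b, hb, rfl⟩ := Submodule.mem_sup.1 hx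
  rw [mul_add]
  exact Submodule.add_mem_sup (hL i hi a ha) (hM i hi b hb)

lemma Stb_inf {L M : Submodule ℂ (MvPolynomial σ ℂ)} (hL : Stb A L) (hM : Stb A M) :
    Stb A (L ⊓ M) := fun i hi x hx => ⟨hL i hi x hx.1, hM i hi x hx.2⟩

lemma Stb_pre (f : MvPolynomial σ ℂ) {L : Submodule ℂ (MvPolynomial σ ℂ)} (hL : Stb A L) :
    Stb A (pre f L) := by
  intro i hi x hx
  rw [mem_pre] at hx ⊢
  rw [mul_left_comm]
  exact hL i hi _ hx

lemma Stb_img (f : MvPolynomial σ ℂ) {L : Submodule ℂ (MvPolynomial σ ℂ)} (hL : Stb A L) :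
    Stb A (img f L) := by
  rintro i hi _ ⟨x, hx, rfl⟩
  refine mem_img.2 ⟨X i * x, hL i hi x hx, ?_⟩
  simp only [LinearMap.mulLeft_apply]
  ring

lemma Stb_mono {L : Submodule ℂ (MvPolynomial σ ℂ)} (h : A ⊆ B) (hL : Stb B L) : Stb A L :=
  fun i hi => hL i (h hi)

lemma X_mem_mon {i : σ} (hi : i ∈ A) : (X i : MvPolynomial σ ℂ) ∈ mon A :=
  Submonoid.subset_closure ⟨i, hi, rfl⟩

lemma Stb_gsp {G : Set (MvPolynomial σ ℂ)} : Stb A (gsp A G) := by
  intro i hi x hx
  induction hx using Submodule.span_induction with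
  | mem x hx =>
    obtain ⟨r, hr, g, hg, rfl⟩ := hx
    exact Submodule.subset_span ⟨X i * r, mul_mem (X_mem_mon hi) hr, g, hg, by ring⟩
  | zero => simp
  | add x y _ _ hx hy => rw [mul_add]; exact add_mem hx hy
  | smul c x _ hx => rw [mul_smul_comm]; exact Submodule.smul_mem _ _ hx

lemma Stb_mon {L : Submodule ℂ (MvPolynomial σ ℂ)} (hL : Stb A L) {r : MvPolynomial σ ℂ}
    (hr : r ∈ mon A) : ∀ x ∈ L, r * x ∈ L := by
  induction hr using Submonoid.closure_induction with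
  | mem x hx =>
    obtain ⟨i, hi, rfl⟩ := hx
    exact hL i hi
  | one => intro x hx; simpa using hx
  | mul a b _ _ ha hb => intro x hx; rw [mul_assoc]; exact ha _ (hb _ hx)

lemma gsp_le {L : Submodule ℂ (MvPolynomial σ ℂ)} (hL : Stb A L) {G : Set (MvPolynomial σ ℂ)}
    (hG : ∀ g ∈ G, g ∈ L) : gsp A G ≤ L := by
  refine Submodule.span_le.2 ?_
  rintro _ ⟨r, hr, g, hg, rfl⟩
  exact Stb_mon hL hr g (hG g hg)

lemma subset_gsp (A : Set σ) {G : Set (MvPolynomial σ ℂ)} {g : MvPolynomial σ ℂ} (hg : g ∈ G) :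
    g ∈ gsp A G := Submodule.subset_span ⟨1, one_mem _, g, hg, by simp⟩

lemma Stb_adjoin {L : Submodule ℂ (MvPolynomial σ ℂ)} (hL : Stb A L) {r : MvPolynomial σ ℂ}
    (hr : r ∈ Algebra.adjoin ℂ ((X : σ → MvPolynomial σ ℂ) '' A)) : ∀ x ∈ L, r * x ∈ L := by
  induction hr using Algebra.adjoin_induction with
  | mem x hx =>
    obtain ⟨i, hi, rfl⟩ := hx
    exact hL i hi
  | algebraMap c =>
    intro x hx
    rw [← Algebra.smul_def]
    exact Submodule.smul_mem _ _ hx
  | add a b _ _ ha hb => intro x hx; rw [add_mul]; exact add_mem (ha x hx) (hb x hx)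
  | mul a b _ _ ha hb => intro x hx; rw [mul_assoc]; exact ha _ (hb _ hx)

/-- a stable subspace as a module over the subalgebra -/
noncomputable def toS {L : Submodule ℂ (MvPolynomial σ ℂ)} (hL : Stb A L) :
    Submodule (Algebra.adjoin ℂ ((X : σ → MvPolynomial σ ℂ) '' A)) (MvPolynomial σ ℂ) where
  carrier := L
  add_mem' := fun h h' => L.add_mem h h'
  zero_mem' := L.zero_mem
  smul_mem' := fun r x hx => by
    rw [Subalgebra.smul_def, smul_eq_mul]
    exact Stb_adjoin hL r.2 x hx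

lemma mem_toS {L : Submodule ℂ (MvPolynomial σ ℂ)} (hL : Stb A L) {x : MvPolynomial σ ℂ} :
    x ∈ toS hL ↔ x ∈ L := Iff.rfl

lemma gen_abs {R M : Type} [CommRing R] [IsNoetherianRing R] [AddCommGroup M] [Module R M]
    {L L' K : Submodule R M} (hle : L' ≤ L) {G : Finset M}
    (hG : L ≤ K ⊔ Submodule.span R (G : Set M)) :
    ∃ G' : Finset M, (∀ g ∈ G', g ∈ L') ∧ L' ≤ K ⊔ Submodule.span R (G' : Set M) := by
  classical
  have h0 : (Submodule.span R (K.mkQ '' (G : Set M))).FG :=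
    ⟨G.image K.mkQ, by rw [Finset.coe_image]⟩
  have h1 : L'.map K.mkQ ≤ Submodule.span R (K.mkQ '' (G : Set M)) := by
    rintro _ ⟨x, hx, rfl⟩
    obtain ⟨k, hk, y, hy, rfl⟩ := Submodule.mem_sup.1 (hG (hle hx))
    have hk0 : K.mkQ k = 0 := (Submodule.Quotient.mk_eq_zero _).2 hk
    rw [map_add, hk0, zero_add, ← Submodule.map_span]
    exact Submodule.mem_map_of_mem hy
  obtain ⟨S, hS⟩ := Submodule.FG.of_le h0 h1
  have h2 : ∀ s ∈ S, ∃ x ∈ L', K.mkQ x = s := by
    intro s hs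
    have : s ∈ L'.map K.mkQ := hS ▸ Submodule.subset_span hs
    exact this
  choose! g hg hg' using h2
  refine ⟨S.image g, ?_, ?_⟩
  · intro y hy
    obtain ⟨s, hs, rfl⟩ := Finset.mem_image.1 hy
    exact hg s hs
  · intro x hx
    have h2 : K.mkQ x ∈ Submodule.span R (S : Set (M ⧸ K)) :=
      hS ▸ Submodule.mem_map_of_mem hx
    have h3 : (S : Set (M ⧸ K)) = K.mkQ '' ((S.image g : Finset M) : Set M) := by
      ext s
      simp only [Finset.coe_image, Set.mem_image]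
      constructor
      · intro hs
        exact ⟨g s, ⟨s, hs, rfl⟩, hg' s hs⟩
      · rintro ⟨_, ⟨s', hs', rfl⟩, rfl⟩
        rw [hg' s' hs']
        exact hs'
    rw [h3, ← Submodule.map_span] at h2
    obtain ⟨y, hy, hyx⟩ := h2
    have h4 : x - y ∈ K := by
      have : K.mkQ (x - y) = 0 := by rw [map_sub, hyx, sub_self]
      exact (Submodule.Quotient.mk_eq_zero _).1 this
    have := Submodule.add_mem_sup h4 hy
    rwa [sub_add_cancel] at this

lemma noeth [Finite σ] (A : Set σ) :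
    IsNoetherianRing (Algebra.adjoin ℂ ((X : σ → MvPolynomial σ ℂ) '' A)) := by
  have h1 : (Algebra.adjoin ℂ ((X : σ → MvPolynomial σ ℂ) '' A)).FG :=
    Subalgebra.fg_def.2 ⟨_, (Set.toFinite A).image _, rfl⟩
  have h2 : Algebra.FiniteType ℂ (Algebra.adjoin ℂ ((X : σ → MvPolynomial σ ℂ) '' A)) :=
    (Subalgebra.fg_iff_finiteType _).1 h1
  exact Algebra.FiniteType.isNoetherianRing ℂ _

lemma FGm_of_le [Finite σ] {L L' K : Submodule ℂ (MvPolynomial σ ℂ)} (hL : Stb A L)
    (hL' : Stb A L') (hK : Stb A K) (h : FGm A L K) (hle : L' ≤ L) : FGm A L' K := by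
  have := noeth A
  obtain ⟨G, hG, h⟩ := h
  have s : ∀ N : Submodule (Algebra.adjoin ℂ ((X : σ → MvPolynomial σ ℂ) '' A))
      (MvPolynomial σ ℂ), Stb A (N.restrictScalars ℂ) := by
    intro N i hi x hx
    have hx' : x ∈ N := hx
    exact N.smul_mem (⟨X i, Algebra.subset_adjoin ⟨i, hi, rfl⟩⟩ :
        Algebra.adjoin ℂ ((X : σ → MvPolynomial σ ℂ) '' A)) hx'
  have h1 : toS hL ≤ toS hK ⊔ Submodule.span _ (G : Set (MvPolynomial σ ℂ)) := by
    have h2 : L ≤ (toS hK ⊔ Submodule.span (Algebra.adjoin ℂ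
        ((X : σ → MvPolynomial σ ℂ) '' A)) (G : Set (MvPolynomial σ ℂ))).restrictScalars ℂ := by
      refine h.trans (sup_le ?_ (gsp_le (s _) ?_))
      · intro y hy
        exact Submodule.mem_sup_left (S := toS hK) hy
      · intro g hg
        exact Submodule.mem_sup_right (S := toS hK) (Submodule.subset_span hg)
    exact fun x hx => h2 hx
  obtain ⟨G', hG', h3⟩ := gen_abs (L' := toS hL') (show toS hL' ≤ toS hL from hle) h1
  refine ⟨G', hG', ?_⟩
  intro x hx
  have h4 := h3 (show x ∈ toS hL' from hx)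
  obtain ⟨k, hk, y, hy, rfl⟩ := Submodule.mem_sup.1 h4
  refine Submodule.add_mem_sup (show k ∈ K from hk) ?_
  have : Submodule.span _ (G' : Set (MvPolynomial σ ℂ)) ≤
      toS (A := A) (Stb_gsp (A := A) (G := (G' : Set (MvPolynomial σ ℂ)))) :=
    Submodule.span_le.2 fun z hz => subset_gsp A hz
  exact this hy

lemma FGm_right {L K K' : Submodule ℂ (MvPolynomial σ ℂ)} (h : FGm A L K) (hle : K ≤ K') :
    FGm A L K' := by
  obtain ⟨G, hG, h⟩ := h
  exact ⟨G, hG, h.trans (sup_le_sup_right hle _)⟩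

/-- ascending chains -/
lemma acc [Finite σ] {L K : Submodule ℂ (MvPolynomial σ ℂ)} (hL : Stb A L) (hK : Stb A K)
    (h : FGm A L K) (M : ℕ → Submodule ℂ (MvPolynomial σ ℂ)) (hM : Monotone M)
    (sM : ∀ n, Stb A (M n)) (hKM : ∀ n, K ≤ M n) (hML : ∀ n, M n ≤ L) :
    ∃ n, ∀ m, M m ≤ M n := by
  have e : ∀ x, x ∈ (⨆ n, M n) ↔ ∃ n, x ∈ M n := fun x =>
    Submodule.mem_iSup_of_directed _ hM.directed_le
  have s : Stb A (⨆ n, M n) := by
    intro i hi x hx
    obtain ⟨n, hn⟩ := (e x).1 hx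
    exact (e _).2 ⟨n, sM n i hi x hn⟩
  obtain ⟨G, hG, hG'⟩ := FGm_of_le hL s hK h (iSup_le hML)
  have h1 : ∀ g ∈ G, ∃ n, g ∈ M n := fun g hg => (e g).1 (hG g hg)
  choose! n hn using h1
  refine ⟨G.sup n, fun m => (le_iSup M m).trans (hG'.trans (sup_le (hKM _) (gsp_le (sM _) ?_)))⟩
  intro g hg
  exact hM (Finset.le_sup hg) (hn g hg)

/-- variables which act by zero can be left out -/
lemma FGm_drop {L K : Submodule ℂ (MvPolynomial σ ℂ)} (hKL : K ≤ L) (hK : Stb A K)
    {D : Set σ} (hB : B ⊆ A ∪ D) (hD : ∀ i ∈ D, ∀ x ∈ L, X i * x ∈ K) (h : FGm B L K) :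
    FGm A L K := by
  obtain ⟨G, hG, h⟩ := h
  refine ⟨G, hG, h.trans (sup_le le_sup_left (Submodule.span_le.2 ?_))⟩
  rintro _ ⟨r, hr, g, hg, rfl⟩
  have h1 : r ∈ mon A ⊔ mon D := by
    rw [mon, mon, ← Submonoid.closure_union, ← Set.image_union]
    exact Submonoid.closure_mono (Set.image_mono hB) hr
  obtain ⟨a, ha, d, hd, rfl⟩ := Submonoid.mem_sup.1 h1
  have h2 : d = 1 ∨ ∀ x ∈ L, d * x ∈ K := by
    clear h1 hr
    induction hd using Submonoid.closure_induction with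
    | mem x hx =>
      obtain ⟨i, hi, rfl⟩ := hx
      exact Or.inr (hD i hi)
    | one => exact Or.inl rfl
    | mul x y _ _ hx hy =>
      rcases hx with rfl | hx
      · rcases hy with rfl | hy
        · left; simp
        · right; simpa using hy
      · right
        rcases hy with rfl | hy
        · simpa using hx
        · intro z hz
          rw [mul_assoc]
          exact hx _ (hKL (hy z hz))
  rcases h2 with rfl | h2
  · refine Submodule.mem_sup_right ?_
    rw [mul_one]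
    exact Submodule.subset_span ⟨a, ha, g, hg, rfl⟩
  · refine Submodule.mem_sup_left ?_
    rw [mul_assoc]
    exact Stb_mon hK ha _ (h2 g (hG g hg))

/-- homogeneous generators -/
lemma FGm_homog {T : Type} {w : σ → Gm T} {L K : Submodule ℂ (MvPolynomial σ ℂ)} (hL : Hmg w L)
    (h : FGm A L K) : ∃ G : Finset (MvPolynomial σ ℂ), (∀ g ∈ G, g ∈ L) ∧
      (∀ g ∈ G, ∃ γ, IsWeightedHomogeneous w g γ) ∧ L ≤ K ⊔ gsp A G := by
  classical
  obtain ⟨G, hG, h⟩ := h
  refine ⟨G.biUnion fun g => ((weightedHomogeneousComponent_finsupp (w := w) g).toFinset).image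
    fun γ => weightedHomogeneousComponent w γ g, ?_, ?_, ?_⟩
  · intro y hy
    simp only [Finset.mem_biUnion, Finset.mem_image] at hy
    obtain ⟨g, hg, γ, _, rfl⟩ := hy
    exact hL g (hG g hg) γ
  · intro y hy
    simp only [Finset.mem_biUnion, Finset.mem_image] at hy
    obtain ⟨g, hg, γ, _, rfl⟩ := hy
    exact ⟨γ, weightedHomogeneousComponent_isWeightedHomogeneous γ g⟩
  · refine h.trans (sup_le_sup_left (gsp_le Stb_gsp ?_) _)
    intro g hg
    have e := sum_weightedHomogeneousComponent w g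
    rw [finsum_eq_sum _ (weightedHomogeneousComponent_finsupp (w := w) g)] at e
    rw [← e]
    refine Submodule.sum_mem _ fun γ hγ => subset_gsp A ?_
    refine Finset.mem_coe.2 (Finset.mem_biUnion.2 ⟨g, hg, Finset.mem_image.2 ⟨γ, ?_, ?_⟩⟩)
    · exact hγ
    · rfl

end stable

end Vale.Agent.P291.RG.F
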