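import Vale.Agent.P291.RG.Lem3

set_option autoImplicit false

/-! Lemma 2: an edge whose ends are separated, and the proof of Lemma 2. -/

namespace Vale.Agent.P291.RG.F

open MvPolynomial

variable {V E T : Type} [DecidableEq E] {src tgt : E → V} {χ : E → T → ℤ}

lemma act_sub' (a : GR T) (h h' : Gm T → ℤ) : act a (h - h') = act a h - act a h' :=
  map_sub _ _ _

/-- the identity of an edge which is not a loop -/
lemma edge_id (a b : GR T) (L K P Q F0 F1 : Gm T → ℤ) (h1 : act a (L - P) = L - F0)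
    (h2 : act b (F0 - Q) = F1 - K) :
    act ((1 - a) * (1 - b)) (L - K) =
      act (1 - a * b) (F0 - F1) - act (a * (1 - b)) (P - F1) - act (b * (1 - a)) (Q - K) := by
  have h3 := congrArg (act b) h1
  have h4 := congrArg (act a) h2
  simp only [act_mul, act_sub, act_one, act_sub', act_comm b a] at *
  linear_combination -h1 + h3 - h2 + h4

lemma cl_edge [Finite V] [Finite E] {e : E} {E' : Finset E} (he : e ∉ E')
    {C : Submodule ℂ (V → ℂ)} {c₀ : V → ℂ} (hc₀ : c₀ ∈ C) (hne : c₀ (tgt e) ≠ c₀ (src e))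
    (ih : Cl src tgt χ E' C) (ih' : Cl src tgt χ E' (cF src tgt C {e})) :
    Cl src tgt χ (insert e E') C := by
  intro L K h
  set s : Ph E := X (some (.inl e)) with hs
  set p : Ph E := X (some (.inr e)) with hp
  have ws : IsWeightedHomogeneous (wE χ) s (χ e, 1) := isWeightedHomogeneous_X ℂ _ _
  have wp : IsWeightedHomogeneous (wE χ) p (-χ e, 1) := isWeightedHomogeneous_X ℂ _ _
  have sL : ∀ x ∈ L, s * x ∈ L := h.sL _ (inl_mem_vr e E')
  have pL : ∀ x ∈ L, p * x ∈ L := h.sL _ (inr_mem_vr e E')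
  have sK : ∀ x ∈ K, s * x ∈ K := h.sK _ (inl_mem_vr e E')
  have pK : ∀ x ∈ K, p * x ∈ K := h.sK _ (inr_mem_vr e E')
  have tL : Stb (vr E') L := Stb_mono (vr_sub e E') h.sL
  have tK : Stb (vr E') K := Stb_mono (vr_sub e E') h.sK
  have hzz : (zz e : Ph E) = s * p := rfl
  -- `s p x` is in every stable subspace between `K` and `L` which contains `x`
  have hz : ∀ M : Submodule ℂ (Ph E), Stb (vr E') M → K ≤ M → M ≤ L → ∀ x ∈ M,
      s * (p * x) ∈ M := by
    intro M hM hKM hML x hx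
    have h1 := h.rel c₀ hc₀ x (hML hx)
    rw [Finset.sum_insert he, add_mul] at h1
    have h2 : (∑ e ∈ E', (c₀ (tgt e) - c₀ (src e)) • zz e) * x ∈ M := by
      rw [Finset.sum_mul]
      refine Submodule.sum_mem _ fun i hi => ?_
      rw [smul_mul_assoc]
      refine Submodule.smul_mem _ _ ?_
      rw [zz, mul_assoc]
      exact hM _ ⟨i, hi, Or.inl rfl⟩ _ (hM _ ⟨i, hi, Or.inr rfl⟩ _ hx)
    have h3 := sub_mem (hKM h1) h2
    rw [add_sub_cancel_right, smul_mul_assoc, hzz, mul_assoc] at h3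
    exact (Submodule.smul_mem_iff _ (sub_ne_zero.2 hne)).1 h3
  obtain ⟨G, hG, hGh, hG'⟩ := FGm_homog h.hL h.fg
  -- `F₀ = K + ∑ R p^j G`, `F₁ = K + ∑ R p^(j+1) G`
  set A : Set (Option (E ⊕ E)) := vr E' ∪ {some (.inr e)} with hA
  have hA' : A ⊆ vr (insert e E') := by
    rw [hA, vr_insert]
    refine Set.union_subset_union_right _ ?_
    rintro _ rfl
    exact Or.inr rfl
  have hA2 : vr E' ⊆ A := Set.subset_union_left
  have AK : Stb A K := Stb_mono hA' h.sK
  set F0 : Submodule ℂ (Ph E) := K ⊔ gsp A G with hF0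
  have AF0 : Stb A F0 := Stb_sup AK Stb_gsp
  have tF0 : Stb (vr E') F0 := Stb_mono hA2 AF0
  have pF0 : ∀ x ∈ F0, p * x ∈ F0 := AF0 _ (Or.inr rfl)
  set F1 : Submodule ℂ (Ph E) := img p F0 ⊔ K with hF1
  have AF1 : Stb A F1 := Stb_sup (Stb_img _ AF0) AK
  have tF1 : Stb (vr E') F1 := Stb_mono hA2 AF1
  have KF0 : K ≤ F0 := le_sup_left
  have KF1 : K ≤ F1 := le_sup_right
  have F10 : F1 ≤ F0 := sup_le (img_le.2 pF0) KF0
  have F0L : F0 ≤ L := sup_le h.le (gsp_le (Stb_mono hA' h.sL) hG)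
  have hmF0 : Hmg (wE χ) F0 := Hmg_sup h.hK (Hmg_gsp hGh)
  have hmF1 : Hmg (wE χ) F1 := Hmg_sup (Hmg_img wp hmF0) h.hK
  have sF1 : img s F1 ≤ F0 := by
    rw [img_le]
    intro x hx
    obtain ⟨_, ⟨y, hy, rfl⟩, z, hz', rfl⟩ := Submodule.mem_sup.1 hx
    rw [mul_add]
    exact add_mem (hz F0 tF0 KF0 F0L y hy) (KF0 (sK z hz'))
  -- the filtration
  have M0 : ∀ n, Stb (vr E') (Mc s F0 F1 n) ∧ K ≤ Mc s F0 F1 n ∧ Mc s F0 F1 n ≤ L := by
    intro n
    induction n with
    | zero => exact ⟨tF1, KF1, F10.trans F0L⟩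
    | succ n ihn =>
      refine ⟨Stb_sup tF0 (Stb_img _ ihn.1), KF0.trans le_sup_left, sup_le F0L ?_⟩
      rw [img_le]
      exact fun x hx => sL x (ihn.2.2 hx)
  have Mmono : Monotone (Mc s F0 F1) := by
    refine monotone_nat_of_le_succ fun n => ?_
    induction n with
    | zero => exact F10.trans le_sup_left
    | succ n ih => exact sup_le_sup_left (img_mono ih) _
  have Mp : ∀ n, ∀ x ∈ Mc s F0 F1 (n + 1), p * x ∈ Mc s F0 F1 n := by
    intro n x hx
    obtain ⟨y, hy, _, ⟨z, hz', rfl⟩, rfl⟩ := Submodule.mem_sup.1 hx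
    rw [mul_add]
    refine add_mem ?_ ?_
    · have h1 : p * y ∈ F1 := Submodule.mem_sup_left ⟨y, hy, rfl⟩
      exact Mmono (Nat.zero_le n) h1
    · simp only [LinearMap.mulLeft_apply]
      rw [mul_left_comm]
      exact hz _ (M0 n).1 (M0 n).2.1 (M0 n).2.2 z hz'
  have Mtop : L ≤ ⨆ n, Mc s F0 F1 n := by
    have e1 : ∀ x, x ∈ (⨆ n, Mc s F0 F1 n) ↔ ∃ n, x ∈ Mc s F0 F1 n := fun x =>
      Submodule.mem_iSup_of_directed _ Mmono.directed_le
    refine hG'.trans (sup_le ((M0 0).2.1.trans (le_iSup _ 0)) (gsp_le ?_ ?_))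
    · intro i hi x hx
      obtain ⟨n, hn⟩ := (e1 x).1 hx
      rw [vr_insert] at hi
      rcases hi with hi | rfl | rfl
      · exact (e1 _).2 ⟨n, (M0 n).1 i hi x hn⟩
      · exact (e1 _).2 ⟨n + 1, Submodule.mem_sup_right ⟨x, hn, rfl⟩⟩
      · exact (e1 _).2 ⟨n, Mp n x (Mmono (Nat.le_succ n) hn)⟩
    · intro g hg
      refine (e1 g).2 ⟨1, Submodule.mem_sup_left ?_⟩
      exact Submodule.mem_sup_right (subset_gsp A hg)
  -- surjectivity of `s : L / F₁ → L / F₀`
  have hsur : img s L ⊔ F0 = L := by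
    apply le_antisymm (sup_le (img_le.2 sL) F0L)
    refine Mtop.trans (iSup_le fun n => ?_)
    cases n with
    | zero => exact F10.trans le_sup_right
    | succ n => exact sup_le le_sup_right ((img_mono (M0 n).2.2).trans le_sup_left)
  have E1 := hf_mul (wE χ) (wE_pos χ) ws h.hL hmF0
  rw [hsur] at E1
  have E2 := hf_mul (wE χ) (wE_pos χ) wp hmF0 h.hK
  -- finite generation
  have fgF0 : FGm A F0 K := ⟨G, fun g hg => Submodule.mem_sup_right (subset_gsp A hg), le_rfl⟩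
  have fgN : FGm (vr E') F0 F1 := by
    refine FGm_drop F10 tF1 (B := A) (D := {some (.inr e)}) le_rfl ?_ (FGm_right fgF0 KF1)
    rintro i rfl x hx
    exact Submodule.mem_sup_left ⟨x, hx, rfl⟩
  have fgP : FGm (vr E') (L ⊓ pre s F0) F1 := fg_kap tF0 tF1 tL F10 F0L sF1 Mtop fgN
  have AQ : Stb A (F0 ⊓ pre p K) := Stb_inf AF0 (Stb_pre _ AK)
  have fgQ : FGm (vr E') (F0 ⊓ pre p K) K := by
    refine FGm_drop (le_inf KF0 pK) tK (B := A) (D := {some (.inr e)}) le_rfl ?_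
      (FGm_of_le AF0 AQ AK fgF0 inf_le_left)
    rintro i rfl x hx
    exact hx.2
  -- the three pairs
  have iN := ih' F0 F1 ⟨F10, hmF0, hmF1, tF0, tF1, fgN, by
    intro c hc x hx
    rw [mem_cF] at hc
    have h1 := h.rel c hc.1 x (F0L hx)
    rw [Finset.sum_insert he, hc.2 e (Finset.mem_singleton_self e), sub_self, zero_smul,
      zero_add] at h1
    exact KF1 h1⟩
  have iP := ih (L ⊓ pre s F0) F1 ⟨le_inf (F10.trans F0L) (fun x hx => sF1 ⟨x, hx, rfl⟩),
    Hmg_inf h.hL (Hmg_pre ws hmF0), hmF1, Stb_inf tL (Stb_pre _ tF0), tF1, fgP, by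
    intro c hc x hx
    have h1 := h.rel c hc x hx.1
    rw [Finset.sum_insert he, add_mul] at h1
    have h2 : (c (tgt e) - c (src e)) • zz e * x ∈ F1 := by
      rw [smul_mul_assoc, hzz, mul_comm s p, mul_assoc]
      exact Submodule.smul_mem _ _ (Submodule.mem_sup_left ⟨_, hx.2, rfl⟩)
    have h3 := sub_mem (KF1 h1) h2
    rwa [add_sub_cancel_left] at h3⟩
  have iQ := ih (F0 ⊓ pre p K) K ⟨le_inf KF0 pK, Hmg_inf hmF0 (Hmg_pre wp h.hK), h.hK,
    Stb_inf tF0 (Stb_pre _ tK), tK, fgQ, by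
    intro c hc x hx
    have h1 := h.rel c hc x (F0L hx.1)
    rw [Finset.sum_insert he, add_mul] at h1
    have h2 : (c (tgt e) - c (src e)) • zz e * x ∈ K := by
      rw [smul_mul_assoc, hzz, mul_assoc]
      exact Submodule.smul_mem _ _ (sK _ hx.2)
    have h3 := sub_mem h1 h2
    rwa [add_sub_cancel_left] at h3⟩
  rw [Dd_insert he]
  refine InJ.of_act ?_
  rw [edge_id (cl (χ e, 1)) (cl (-χ e, 1)) _ _ _ _ _ _ E1 E2]
  have hab : (cl (χ e, 1) * cl (-χ e, 1) : GR T) = cl (0, 2) := by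
    rw [← cl_add]
    congr 1
    ext <;> simp
  refine InJ.sub (InJ.sub ?_ ?_) ?_
  · rw [hab]
    exact iN.act_of _ fun a ha => J_contract he hc₀ hne ha
  · refine iP.act_of _ fun a ha => ?_
    rw [mul_assoc]
    have := J_delete (χ := χ) he (-1) ha
    rw [Units.val_neg, Units.val_one, neg_smul, one_smul] at this
    exact Ideal.mul_mem_left _ _ this
  · refine iQ.act_of _ fun a ha => ?_
    rw [mul_assoc]
    have := J_delete (χ := χ) he 1 ha
    rw [Units.val_one, one_smul] at this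
    exact Ideal.mul_mem_left _ _ this

theorem cl_all [Finite V] [Finite E] (E' : Finset E) (C : Submodule ℂ (V → ℂ)) :
    Cl src tgt χ E' C := by
  induction E' using Finset.induction_on generalizing C with
  | empty => exact cl_empty C
  | insert e E' he ih =>
    by_cases h : ∀ c ∈ C, c (tgt e) = c (src e)
    · exact cl_loop he h (ih C)
    · push Not at h
      obtain ⟨c, hc, hne⟩ := h
      exact cl_edge he hc hne (ih C) (ih _)

end Vale.Agent.P291.RG.F

namespace Vale.Agent.P291.RG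

open MvPolynomial

theorem lemma2 {V E T : Type} [Finite V] [Finite E] [DecidableEq E] {src tgt : E → V}
    {χ : E → T → ℤ} (E' : Finset E) (C : Submodule ℂ (V → ℂ)) {L K : Submodule ℂ (Ph E)}
    (hKL : K ≤ L) (hL : Hmg (wE χ) L) (hK : Hmg (wE χ) K) (sL : Stb (vr E') L)
    (sK : Stb (vr E') K) (fg : FGm (vr E') L K)
    (h : ∀ c ∈ C, ∀ x ∈ L, (∑ e ∈ E', (c (tgt e) - c (src e)) • zz e) * x ∈ K) :
    ∃ a ∈ J src tgt χ E' C,
      act (Dd χ E') (hf (wE χ) L - hf (wE χ) K) = act a (dl T) :=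
  F.cl_all E' C L K ⟨hKL, hL, hK, sL, sK, fg, h⟩

end Vale.Agent.P291.RG
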