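import Vale.Agent.P291.RG.Base

/-!
# P291, RG, A1: Nullstellensatz with scaling (helper17)
-/

set_option autoImplicit false
set_option linter.unusedSectionVars false

namespace Vale.Agent.P291.RG

open MvPolynomial

section
variable {V E : Type} [Fintype E] [DecidableEq V] (src tgt : E → V) (ν : V → ℂ)

/-- the homogenized moment map equation at the vertex `b` -/
noncomputable def fB (b : V) : Ph E :=
  (∑ e with tgt e = b, zz e) - (∑ e with src e = b, zz e) - C (ν b) * X none

end

theorem eval_smul_of_wh {s T : Type} {w : s → Gm T} (hw : ∀ i, (w i).2 = 1)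
    {q : MvPolynomial s ℂ} {a : T → ℤ} (hq : IsWeightedHomogeneous w q (a, 2)) (c : ℂ) (y : s → ℂ) :
    eval (fun i => c * y i) q = c ^ 2 * eval y q := by
  rw [eval_eq, eval_eq, Finset.mul_sum]
  refine Finset.sum_congr rfl fun d hd => ?_
  have h1 := hq (mem_support_iff.1 hd)
  have h2 : ∑ i ∈ d.support, d i = 2 := by
    rw [Finsupp.weight_apply, Finsupp.sum] at h1
    have h3 := congrArg Prod.snd h1
    rw [Prod.snd_sum] at h3
    simp only [Prod.smul_snd, hw] at h3
    simp only [nsmul_eq_mul, mul_one] at h3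
    exact_mod_cast h3
  simp only [mul_pow, Finset.prod_mul_distrib]
  rw [Finset.prod_pow_eq_pow_sum, h2]
  ring

theorem nst {V E T ι : Type} [Fintype E] [DecidableEq V] (src tgt : E → V) (χ : E → T → ℤ)
    (ν : V → ℂ) (b₀ : V) (q : ι → MvPolynomial (E ⊕ E) ℂ) (α : ι → T → ℤ)
    (hq : ∀ j, IsWeightedHomogeneous (fun i => wE χ (some i)) (q j) (α j, 2))
    (hno : ¬ ∃ y : E ⊕ E → ℂ, (∀ b, b ≠ b₀ →
      (∑ e with tgt e = b, y (.inl e) * y (.inr e)) -
        (∑ e with src e = b, y (.inl e) * y (.inr e)) = ν b) ∧ ∀ j, eval y (q j) = 0) :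
    ∃ N : ℕ, (X none : Ph E) ^ N ∈
      Ideal.span ({f | ∃ b, b ≠ b₀ ∧ f = fB src tgt ν b} ∪ Set.range fun j => rename some (q j)) := by
  classical
  set I : Ideal (Ph E) :=
    Ideal.span ({f | ∃ b, b ≠ b₀ ∧ f = fB src tgt ν b} ∪ Set.range fun j => rename some (q j))
  have h : (X none : Ph E) ∈ I.radical := by
    rw [← vanishingIdeal_zeroLocus_eq_radical (K := ℂ), mem_vanishingIdeal_iff]
    intro z hz
    rw [mem_zeroLocus_iff] at hz
    rw [aeval_X]
    by_contra hne
    obtain ⟨c, hc⟩ : ∃ c : ℂ, c ^ 2 = z none := IsAlgClosed.exists_pow_nat_eq _ (by norm_num)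
    have hc0 : c ≠ 0 := by
      rintro rfl
      exact hne (by rw [← hc]; norm_num)
    refine hno ⟨fun i => c⁻¹ * z (some i), fun b hb => ?_, fun j => ?_⟩
    · have h1 := hz (fB src tgt ν b) (Ideal.subset_span (Or.inl ⟨b, hb, rfl⟩))
      unfold fB zz at h1
      simp only [map_sub, map_sum, map_mul, aeval_X, aeval_C, ← hc] at h1
      have h2 : (∑ e with tgt e = b, c⁻¹ * z (some (Sum.inl e)) * (c⁻¹ * z (some (Sum.inr e)))) -
          (∑ e with src e = b, c⁻¹ * z (some (Sum.inl e)) * (c⁻¹ * z (some (Sum.inr e)))) =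
          (c⁻¹) ^ 2 * ((∑ e with tgt e = b, z (some (Sum.inl e)) * z (some (Sum.inr e))) -
          (∑ e with src e = b, z (some (Sum.inl e)) * z (some (Sum.inr e)))) := by
        rw [mul_sub, Finset.mul_sum, Finset.mul_sum]
        congr 1 <;> exact Finset.sum_congr rfl fun e _ => by ring
      rw [h2, sub_eq_zero.1 h1]
      simp only [Algebra.algebraMap_self, RingHom.id_apply]
      field_simp
    · have h1 := hz (rename some (q j)) (Ideal.subset_span (Or.inr ⟨j, rfl⟩))
      rw [aeval_rename] at h1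
      rw [eval_smul_of_wh (w := fun i => wE χ (some i)) _ (hq j)]
      · rw [show eval (fun i => z (some i)) (q j) = 0 from h1, mul_zero]
      · rintro (i | i) <;> rfl
  exact h

end Vale.Agent.P291.RG
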