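import Vale.Agent.P291.RG.Iter
import Vale.Agent.P291.RG.Fg
import Vale.Agent.P291.RG.Exps
import Vale.Agent.P291.RG.Nst
import Vale.Agent.P291.RG.Lem4

set_option autoImplicit false

/-! Assembly of Theorem A from Lemma 2, the Nullstellensatz and the exponential argument
(helper806). -/

namespace Vale.Agent.P291.RG

open MvPolynomial

section
variable {V E T : Type} [Fintype V] [DecidableEq V] [Fintype E] [DecidableEq E]
  (src tgt : E → V) (χ : E → T → ℤ) (b₀ : V)

/-- the moment map at the vertex `b`, without the constant -/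
noncomputable def mb (b : V) : Ph E :=
  (∑ e with tgt e = b, zz e) - ∑ e with src e = b, zz e

omit [DecidableEq E] in
/-- `Σ_e (c (tgt e) - c (src e)) z_e = Σ_b c_b m_b` -/
lemma sum_mb (c : V → ℂ) :
    ∑ e, (c (tgt e) - c (src e)) • zz e = ∑ b, c b • mb src tgt b := by
  simp only [mb, smul_sub, Finset.smul_sum, Finset.sum_sub_distrib, sub_smul]
  congr 1
  · rw [← Finset.sum_fiberwise (s := Finset.univ) (g := tgt)
      (f := fun e => c (tgt e) • zz e)]
    refine Finset.sum_congr rfl fun b _ => Finset.sum_congr rfl fun e he => ?_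
    rw [(Finset.mem_filter.1 he).2]
  · rw [← Finset.sum_fiberwise (s := Finset.univ) (g := src)
      (f := fun e => c (src e) • zz e)]
    refine Finset.sum_congr rfl fun b _ => Finset.sum_congr rfl fun e he => ?_
    rw [(Finset.mem_filter.1 he).2]

lemma FGm_top {σ : Type} (K : Submodule ℂ (MvPolynomial σ ℂ)) : FGm Set.univ ⊤ K := by
  refine ⟨{1}, fun _ _ => Submodule.mem_top, fun p _ => Submodule.mem_sup_right ?_⟩
  induction p using MvPolynomial.induction_on' with
  | monomial u a =>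
    have h : monomial u a = a • (monomial u (1 : ℂ) * 1) := by
      rw [mul_one, smul_monomial, smul_eq_mul, mul_one]
    rw [h]
    refine Submodule.smul_mem _ a (Submodule.subset_span ⟨monomial u 1, ?_, 1, by simp, rfl⟩)
    rw [monomial_eq, C_1, one_mul, Finsupp.prod]
    refine Submonoid.prod_mem _ fun i _ => Submonoid.pow_mem _ ?_ _
    exact Submonoid.subset_closure ⟨i, Set.mem_univ i, rfl⟩
  | add p q hp hq => exact Submodule.add_mem _ (hp trivial) (hq trivial)

omit [Fintype E] [DecidableEq E] in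
lemma homog_zz (e : E) : IsWeightedHomogeneous (wE χ) (zz e) ((0 : T → ℤ), 2) := by
  have h := (isWeightedHomogeneous_X ℂ (wE χ) (some (Sum.inl e))).mul
    (isWeightedHomogeneous_X ℂ (wE χ) (some (Sum.inr e)))
  have e1 : wE χ (some (Sum.inl e)) + wE χ (some (Sum.inr e)) = ((0 : T → ℤ), 2) := by
    simp only [wE, Prod.mk_add_mk]
    norm_num
  rwa [e1] at h

omit [Fintype V] [DecidableEq E] in
lemma homog_mb (b : V) : IsWeightedHomogeneous (wE χ) (mb src tgt b) ((0 : T → ℤ), 2) :=
  (IsWeightedHomogeneous.sum _ _ _ fun e _ => homog_zz χ e).sub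
    (IsWeightedHomogeneous.sum _ _ _ fun e _ => homog_zz χ e)

/-- Theorem A, from Lemma 2 and the Nullstellensatz -/
theorem solvable_of
    (lemma2 : ∀ {L K : Submodule ℂ (Ph E)}, K ≤ L → Hmg (wE χ) L → Hmg (wE χ) K →
      Stb (vr Finset.univ) L → Stb (vr Finset.univ) K → FGm (vr Finset.univ) L K →
      (∀ c ∈ C0 b₀, ∀ x ∈ L, (∑ e ∈ Finset.univ, (c (tgt e) - c (src e)) • zz e) * x ∈ K) →
      ∃ a ∈ J src tgt χ Finset.univ (C0 b₀),
        act (Dd χ Finset.univ) (hf (wE χ) L - hf (wE χ) K) = act a (dl T))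
    [Fintype T] {n : Type} [Fintype n] (ν : V → ℂ) (α : n → T → ℤ)
    (q : n → MvPolynomial (E ⊕ E) ℂ)
    (hq : ∀ j, IsWeightedHomogeneous (wE χ) (rename some (q j)) (α j, 2))
    {N : ℕ} (hN : (X none : Ph E) ^ N ∈ Ideal.span
      ({p | ∃ b ≠ b₀, p = mb src tgt b - C (ν b) * X none} ∪ Set.range fun j => rename some (q j))) :
    ∏ j, lin (α j) ∈ cutI src tgt χ b₀ := by
  classical
  set η : Ph E := X none with hη
  have hηw : IsWeightedHomogeneous (wE χ) η ((0 : T → ℤ), 2) :=
    isWeightedHomogeneous_X ℂ (wE χ) none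
  let Ff : {b // b ≠ b₀} ⊕ n → Ph E :=
    Sum.elim (fun b => mb src tgt b.1 - C (ν b.1) * η) fun j => rename some (q j)
  let u : {b // b ≠ b₀} ⊕ n → Gm T := Sum.elim (fun _ => (0, 2)) fun j => (α j, 2)
  have hF : ∀ j, IsWeightedHomogeneous (wE χ) (Ff j) (u j) := by
    rintro (b | j)
    · exact (homog_mb src tgt χ b.1).sub (hηw.C_mul _)
    · exact hq j
  have hr : Set.range Ff = {p | ∃ b ≠ b₀, p = mb src tgt b - C (ν b) * X none} ∪
      Set.range fun j => rename some (q j) := by
    ext p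
    constructor
    · rintro ⟨b | j, rfl⟩
      · exact Or.inl ⟨b.1, b.2, rfl⟩
      · exact Or.inr ⟨j, rfl⟩
    · rintro (⟨b, hb, rfl⟩ | ⟨j, rfl⟩)
      · exact ⟨Sum.inl ⟨b, hb⟩, rfl⟩
      · exact ⟨Sum.inr j, rfl⟩
  have hw : ∀ i, 0 < (wE χ i).2 := by
    rintro (_ | e | e) <;> simp [wE]
  rw [← hr] at hN
  have h1 := iter2 hw Ff u hF hηw hN
  -- every element of `Prs` is hit
  have h2 : ∀ h ∈ Prs (wE χ) (insert η (Set.range Ff)),
      ∃ a ∈ J src tgt χ Finset.univ (C0 b₀), act (Dd χ Finset.univ) h = act a (dl T) := by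
    intro h hh
    induction hh using AddSubgroup.closure_induction with
    | mem h hh =>
      obtain ⟨a, L, K, ⟨hKL, hL, hK, sL, sK, hX⟩, rfl⟩ := hh
      obtain ⟨c, hc, h3⟩ := lemma2 hKL hL hK (fun i _ => sL i (Set.mem_univ i))
        (fun i _ => sK i (Set.mem_univ i)) (by
          refine F.FGm_drop hKL (fun i _ => sK i (Set.mem_univ i)) (B := Set.univ) (D := {none})
            ?_ ?_ (F.FGm_of_le (L := ⊤) (fun _ _ _ _ => Submodule.mem_top) sL sK (FGm_top K)
              le_top)
          · rintro (_ | e | e) _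
            · exact Or.inr rfl
            · exact Or.inl ⟨e, Finset.mem_univ e, Or.inl rfl⟩
            · exact Or.inl ⟨e, Finset.mem_univ e, Or.inr rfl⟩
          · rintro i rfl x hx
            exact hX η (Set.mem_insert _ _) ⟨x, hx, rfl⟩) (by
          intro c hc x hx
          rw [sum_mb, Finset.sum_mul]
          refine Submodule.sum_mem _ fun b _ => ?_
          rw [smul_mul_assoc]
          by_cases hb : b = b₀
          · have : c b = 0 := by
              rw [hb]
              exact hc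
            rw [this, zero_smul]
            exact Submodule.zero_mem _
          · refine Submodule.smul_mem _ _ ?_
            have e : mb src tgt b * x = (mb src tgt b - C (ν b) * η) * x + C (ν b) * (η * x) := by
              ring
            rw [e]
            refine K.add_mem (hX _ (Set.mem_insert_of_mem _ ⟨Sum.inl ⟨b, hb⟩, rfl⟩) ⟨x, hx, rfl⟩) ?_
            rw [← smul_eq_C_mul]
            exact K.smul_mem _ (hX η (Set.mem_insert _ _) ⟨x, hx, rfl⟩))
      refine ⟨a * c, Ideal.mul_mem_left _ _ hc, ?_⟩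
      rw [← Module.End.mul_apply, ← map_mul, mul_comm, map_mul, Module.End.mul_apply, h3, map_mul,
        Module.End.mul_apply]
    | zero => exact ⟨0, Ideal.zero_mem _, by rw [map_zero, map_zero, LinearMap.zero_apply]⟩
    | add x y _ _ hx hy =>
      obtain ⟨a, ha, h3⟩ := hx
      obtain ⟨b, hb, h4⟩ := hy
      exact ⟨a + b, Ideal.add_mem _ ha hb, by rw [map_add, map_add, h3, h4, LinearMap.add_apply]⟩
    | neg x _ hx =>
      obtain ⟨a, ha, h3⟩ := hx
      exact ⟨-a, Submodule.neg_mem _ ha, by rw [map_neg, map_neg, h3, LinearMap.neg_apply]⟩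
  obtain ⟨a, ha, h3⟩ := h2 _ h1
  refine cut_of_J src tgt χ b₀ α ha (act_dl_inj ?_)
  have e : (∏ j, (1 - cl (u j))) = (∏ j, (1 - cl (α j, 2))) *
      (1 - cl ((0 : T → ℤ), 2)) ^ (Fintype.card V - 1) := by
    rw [Fintype.prod_sum_type, mul_comm]
    congr 1
    simp only [u, Sum.elim_inl]
    rw [Finset.prod_const, Finset.card_univ, Fintype.card_subtype_compl, Fintype.card_subtype_eq]
  rw [← e]
  have h4 := Dd_top χ (E := E)
  have h5 : act (∏ j, (1 - cl (u j))) (dl T) =
      act (1 - cl ((0 : T → ℤ), 2)) (act (Dd χ Finset.univ) (act (∏ j, (1 - cl (u j)))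
        (hf (wE χ) ⊤))) := by
    rw [← h4]
    simp only [← Module.End.mul_apply, ← map_mul]
    congr 2
    ring
  rw [h5, h3, map_mul, Module.End.mul_apply]

omit [Fintype E] [DecidableEq E] in
lemma homog_rename {q : MvPolynomial (E ⊕ E) ℂ} {g : Gm T}
    (hq : IsWeightedHomogeneous (fun i => wE χ (some i)) q g) :
    IsWeightedHomogeneous (wE χ) (rename some q : Ph E) g := by
  intro d hd
  obtain ⟨d', rfl, h⟩ := coeff_rename_ne_zero some q d hd
  rw [← hq h, Finsupp.weight_apply, Finsupp.weight_apply]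
  exact Finsupp.sum_mapDomain_index_inj (Option.some_injective _)

/-- Theorem A -/
theorem solvable [Fintype T] {n : Type} [Fintype n] (ν : V → ℂ) (α : n → T → ℤ)
    (q : n → MvPolynomial (E ⊕ E) ℂ)
    (hq : ∀ j, IsWeightedHomogeneous (fun i => wE χ (some i)) (q j) (α j, 2))
    (hcut : ∏ j, lin (α j) ∉ cutI src tgt χ b₀) :
    ∃ y : E ⊕ E → ℂ, (∀ b, b ≠ b₀ →
      (∑ e with tgt e = b, y (.inl e) * y (.inr e)) -
        (∑ e with src e = b, y (.inl e) * y (.inr e)) = ν b) ∧ ∀ j, eval y (q j) = 0 := by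
  by_contra hno
  obtain ⟨N, hN⟩ := nst src tgt χ ν b₀ q α hq hno
  refine hcut (solvable_of src tgt χ b₀ (fun h1 h2 h3 h4 h5 h6 h7 =>
    lemma2 (χ := χ) Finset.univ (C0 b₀) h1 h2 h3 h4 h5 h6 h7) ν α q
      (fun j => homog_rename χ (hq j)) (N := N) ?_)
  exact hN

end

end Vale.Agent.P291.RG
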