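import Vale.Agent.P291.RG.Pts
import Vale.Agent.P291.RG.ThmA

set_option autoImplicit false

/-! The moment map in coordinates; from the cut ideals of `Empty` to the solutions of `μ_ℂ = ν`. -/

namespace Vale.Agent.P291.RG

open MvPolynomial Vale.Agent.P291.Q

noncomputable section

open Classical in
/-- the matrix `A` of the vertex `t`, as a function on pairs of basis vectors -/
def dE {D : QData} {R : Type} [CommRing R] (t : D.I) (A : Fin (D.v t) → Fin (D.v t) → R)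
    (b b' : B D) : R :=
  ∑ r, ∑ s, if (⟨t, r⟩ : B D) = b ∧ (⟨t, s⟩ : B D) = b' then A r s else 0

section
variable {D : QData} {R : Type} [CommRing R]

lemma dE_self (t : D.I) (A : Fin (D.v t) → Fin (D.v t) → R) (r s : Fin (D.v t)) :
    dE t A ⟨t, r⟩ ⟨t, s⟩ = A r s := by
  classical
  rw [dE, Finset.sum_eq_single r, Finset.sum_eq_single s]
  · rw [if_pos ⟨rfl, rfl⟩]
  · intro s' _ h
    rw [if_neg]
    rintro ⟨-, h1⟩
    exact h (by simpa using h1)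
  · exact fun h => absurd (Finset.mem_univ _) h
  · intro r' _ h
    refine Finset.sum_eq_zero fun s' _ => if_neg ?_
    rintro ⟨h1, -⟩
    exact h (by simpa using h1)
  · exact fun h => absurd (Finset.mem_univ _) h

lemma dE_ne {t i : D.I} (h : i ≠ t) (A : Fin (D.v t) → Fin (D.v t) → R) (r s : Fin (D.v i)) :
    dE t A ⟨i, r⟩ ⟨i, s⟩ = 0 := by
  classical
  refine Finset.sum_eq_zero fun r' _ => Finset.sum_eq_zero fun s' _ => if_neg ?_
  rintro ⟨h1, -⟩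
  exact h (congrArg Sigma.fst h1).symm

lemma sum_dE (t : D.I) (A : Fin (D.v t) → Fin (D.v t) → R)
    (ξ : (i : D.I) → Fin (D.v i) → Fin (D.v i) → R) :
    ∑ i, ∑ r, ∑ s, dE t A ⟨i, r⟩ ⟨i, s⟩ * ξ i s r = ∑ r, ∑ s, A r s * ξ t s r := by
  rw [Finset.sum_eq_single t]
  · simp only [dE_self]
  · intro i _ h
    simp [dE_ne h]
  · exact fun h => absurd (Finset.mem_univ _) h

lemma sum_sum_dE {A : Type} [Fintype A] (t : A → D.I)
    (M : (a : A) → Fin (D.v (t a)) → Fin (D.v (t a)) → R)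
    (ξ : (i : D.I) → Fin (D.v i) → Fin (D.v i) → R) :
    ∑ i, ∑ r, ∑ s, (∑ a, dE (t a) (M a) ⟨i, r⟩ ⟨i, s⟩) * ξ i s r =
      ∑ a, ∑ r, ∑ s, M a r s * ξ (t a) s r := by
  simp_rw [Finset.sum_mul]
  calc ∑ i, ∑ r, ∑ s, ∑ a, dE (t a) (M a) ⟨i, r⟩ ⟨i, s⟩ * ξ i s r
      = ∑ i, ∑ r, ∑ a, ∑ s, dE (t a) (M a) ⟨i, r⟩ ⟨i, s⟩ * ξ i s r :=
        Finset.sum_congr rfl fun i _ => Finset.sum_congr rfl fun r _ => Finset.sum_comm
    _ = ∑ i, ∑ a, ∑ r, ∑ s, dE (t a) (M a) ⟨i, r⟩ ⟨i, s⟩ * ξ i s r :=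
        Finset.sum_congr rfl fun i _ => Finset.sum_comm
    _ = ∑ a, ∑ i, ∑ r, ∑ s, dE (t a) (M a) ⟨i, r⟩ ⟨i, s⟩ * ξ i s r := Finset.sum_comm
    _ = ∑ a, ∑ r, ∑ s, M a r s * ξ (t a) s r :=
        Finset.sum_congr rfl fun a _ => sum_dE (t a) (M a) ξ

/-- coordinates of the arrows -/
abbrev E1 (D : QData) : Type := Σ a : D.A, Fin (D.v (D.tgt a)) × Fin (D.v (D.src a))

/-- coordinates of the framing -/
abbrev E2 (D : QData) : Type := Σ i : D.I, Fin (D.w i) × Fin (D.v i)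

/-- the entries of the moment map -/
def ent (z : (E1 D ⊕ E2 D) ⊕ (E1 D ⊕ E2 D) → R) (b b' : B D) : R :=
  (∑ a, dE (D.tgt a) (fun r s => ∑ c, z (.inl (.inl ⟨a, r, c⟩)) * z (.inr (.inl ⟨a, s, c⟩))) b b') -
    (∑ a, dE (D.src a)
      (fun r s => ∑ c, z (.inr (.inl ⟨a, c, r⟩)) * z (.inl (.inl ⟨a, c, s⟩))) b b') -
    ∑ i, dE i (fun r s => ∑ k, z (.inr (.inr ⟨i, k, r⟩)) * z (.inl (.inr ⟨i, k, s⟩))) b b'

lemma map_dE {S : Type} [CommRing S] (f : R →+* S) (t : D.I) (A : Fin (D.v t) → Fin (D.v t) → R)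
    (b b' : B D) : f (dE t A b b') = dE t (fun r s => f (A r s)) b b' := by
  classical
  simp only [dE, map_sum]
  refine Finset.sum_congr rfl fun r _ => Finset.sum_congr rfl fun s _ => ?_
  split_ifs
  · rfl
  · exact map_zero f

lemma map_ent {S : Type} [CommRing S] (f : R →+* S) (z : (E1 D ⊕ E2 D) ⊕ (E1 D ⊕ E2 D) → R)
    (b b' : B D) : f (ent z b b') = ent (fun e => f (z e)) b b' := by
  simp only [ent, map_sub, map_sum, map_dE, map_mul]

/-- the point with given coordinates -/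
def pt (z : (E1 D ⊕ E2 D) ⊕ (E1 D ⊕ E2 D) → ℂ) : Pt D where
  s a := Matrix.of fun s r => z (.inl (.inl ⟨a, s, r⟩))
  p a := Matrix.of fun r s => z (.inr (.inl ⟨a, s, r⟩))
  i k := Matrix.of fun c r => z (.inl (.inr ⟨k, c, r⟩))
  j k := Matrix.of fun r c => z (.inr (.inr ⟨k, c, r⟩))

lemma tr_mul {n m : ℕ} (P : Matrix (Fin n) (Fin m) ℂ) (Q : Matrix (Fin m) (Fin n) ℂ)
    (ξ : Matrix (Fin n) (Fin n) ℂ) :
    (P * Q * ξ).trace = ∑ r, ∑ s, (∑ c, P r c * Q c s) * ξ s r := by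
  simp [Matrix.trace, Matrix.mul_apply]

lemma mom_pt (z : (E1 D ⊕ E2 D) ⊕ (E1 D ⊕ E2 D) → ℂ) (ξ : Lg D) :
    mom (pt z) ξ = ∑ i, ∑ r, ∑ s, ent z ⟨i, r⟩ ⟨i, s⟩ * ξ i s r := by
  have e1 : ∀ a, (((pt z).p a) * (ξ (D.tgt a) * (pt z).s a - (pt z).s a * ξ (D.src a))).trace =
      ((pt z).s a * (pt z).p a * ξ (D.tgt a)).trace -
        ((pt z).p a * (pt z).s a * ξ (D.src a)).trace := by
    intro a
    rw [Matrix.mul_sub, Matrix.trace_sub, ← Matrix.mul_assoc, ← Matrix.mul_assoc, Matrix.trace_mul_comm,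
      ← Matrix.mul_assoc]
  have e2 : ∀ k, ((pt z).j k * -((pt z).i k * ξ k)).trace =
      -((pt z).j k * (pt z).i k * ξ k).trace := by
    intro k
    rw [Matrix.mul_neg, Matrix.trace_neg, Matrix.mul_assoc]
  have e3 : ∀ i r s, ent z ⟨i, r⟩ ⟨i, s⟩ * ξ i s r =
      (∑ a, dE (D.tgt a) (fun r s => ∑ c, z (.inl (.inl ⟨a, r, c⟩)) * z (.inr (.inl ⟨a, s, c⟩)))
        ⟨i, r⟩ ⟨i, s⟩) * ξ i s r -
      (∑ a, dE (D.src a) (fun r s => ∑ c, z (.inr (.inl ⟨a, c, r⟩)) * z (.inl (.inl ⟨a, c, s⟩)))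
        ⟨i, r⟩ ⟨i, s⟩) * ξ i s r -
      (∑ k, dE k (fun r s => ∑ c, z (.inr (.inr ⟨k, c, r⟩)) * z (.inl (.inr ⟨k, c, s⟩)))
        ⟨i, r⟩ ⟨i, s⟩) * ξ i s r := by
    intro i r s
    rw [ent, sub_mul, sub_mul]
  simp only [e3, Finset.sum_sub_distrib]
  rw [sum_sum_dE (fun a => D.tgt a) _ fun i => ξ i, sum_sum_dE (fun a => D.src a) _ fun i => ξ i,
    sum_sum_dE (fun k : D.I => k) _ fun i => ξ i, mom]
  simp only [e1, e2, tr_mul, Finset.sum_sub_distrib, Finset.sum_neg_distrib]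
  rw [← sub_eq_add_neg]
  rfl

lemma dE_diag (t : D.I) (A : Fin (D.v t) → Fin (D.v t) → R) (b : B D) :
    dE t A b b = ∑ r, ∑ s, if (⟨t, r⟩ : B D) = b ∧ s = r then A r s else 0 := by
  classical
  refine Finset.sum_congr rfl fun r _ => Finset.sum_congr rfl fun s _ => ?_
  refine if_congr ?_ rfl rfl
  constructor
  · rintro ⟨rfl, h2⟩
    exact ⟨rfl, by simpa using h2⟩
  · rintro ⟨rfl, rfl⟩
    exact ⟨rfl, rfl⟩

end

section
variable {D : QData} {V : Type} (ι : B D → V) (o : V)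

/-- sources of the coordinates -/
def srE : E1 D ⊕ E2 D → V
  | .inl e => ι ⟨D.src e.1, e.2.2⟩
  | .inr e => ι ⟨e.1, e.2.2⟩

/-- targets of the coordinates -/
def tgE : E1 D ⊕ E2 D → V
  | .inl e => ι ⟨D.tgt e.1, e.2.1⟩
  | .inr _ => o

open Classical in
/-- the weights of the coordinates -/
def chE : E1 D ⊕ E2 D → B D ⊕ Fl D → ℤ
  | .inl e => Pi.single (.inl ⟨D.tgt e.1, e.2.1⟩) 1 - Pi.single (.inl ⟨D.src e.1, e.2.2⟩) 1 +
      Pi.single (.inr (.inl e.1)) 1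
  | .inr e => Pi.single (.inr (.inr ⟨e.1, e.2.1⟩)) 1 - Pi.single (.inl ⟨e.1, e.2.2⟩) 1

open Classical in
/-- the roots -/
def rE (b b' : B D) : B D ⊕ Fl D → ℤ := Pi.single (.inl b) 1 - Pi.single (.inl b') 1

lemma sum_E {M : Type} [AddCommMonoid M] (f : E1 D ⊕ E2 D → M) : ∑ e, f e =
    (∑ a, ∑ s, ∑ r, f (.inl ⟨a, s, r⟩)) + ∑ i, ∑ k, ∑ r, f (.inr ⟨i, k, r⟩) := by
  rw [Fintype.sum_sum_type, Fintype.sum_sigma, Fintype.sum_sigma]
  simp only [Fintype.sum_prod_type]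

lemma prod_E {M : Type} [CommMonoid M] (f : E1 D ⊕ E2 D → M) : ∏ e, f e =
    (∏ a, ∏ s, ∏ r, f (.inl ⟨a, s, r⟩)) * ∏ i, ∏ k, ∏ r, f (.inr ⟨i, k, r⟩) := by
  rw [Fintype.prod_sum_type, Fintype.prod_sigma, Fintype.prod_sigma]
  simp only [Fintype.prod_prod_type]

variable {ι o} in
lemma ent_diag [DecidableEq V] {R : Type} [CommRing R] (hι : Function.Injective ι)
    (ho : ∀ (_ : E2 D) b, o ≠ ι b) (z : (E1 D ⊕ E2 D) ⊕ (E1 D ⊕ E2 D) → R) (b : B D) :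
    ent z b b = (∑ e with tgE ι o e = ι b, z (.inl e) * z (.inr e)) -
      ∑ e with srE ι e = ι b, z (.inl e) * z (.inr e) := by
  classical
  rw [Finset.sum_filter, Finset.sum_filter, sum_E, sum_E, ent]
  simp only [dE_diag]
  have h1 : ∀ a, (∑ r, ∑ s, if (⟨D.tgt a, r⟩ : B D) = b ∧ s = r then
      ∑ c, z (.inl (.inl ⟨a, r, c⟩)) * z (.inr (.inl ⟨a, s, c⟩)) else 0) =
      ∑ s, ∑ r, if tgE ι o (.inl ⟨a, s, r⟩) = ι b then
        z (.inl (.inl ⟨a, s, r⟩)) * z (.inr (.inl ⟨a, s, r⟩)) else 0 := by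
    intro a
    refine Finset.sum_congr rfl fun r _ => ?_
    simp only [tgE, hι.eq_iff]
    by_cases h : (⟨D.tgt a, r⟩ : B D) = b
    · simp [h]
    · simp [h]
  have h2 : ∀ a, (∑ r, ∑ s, if (⟨D.src a, r⟩ : B D) = b ∧ s = r then
      ∑ c, z (.inr (.inl ⟨a, c, r⟩)) * z (.inl (.inl ⟨a, c, s⟩)) else 0) =
      ∑ s, ∑ r, if srE ι (.inl ⟨a, s, r⟩) = ι b then
        z (.inl (.inl ⟨a, s, r⟩)) * z (.inr (.inl ⟨a, s, r⟩)) else 0 := by
    intro a
    rw [Finset.sum_comm (s := Finset.univ (α := Fin (D.v (D.tgt a))))]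
    refine Finset.sum_congr rfl fun r _ => ?_
    simp only [srE, hι.eq_iff]
    by_cases h : (⟨D.src a, r⟩ : B D) = b
    · simp [h, mul_comm]
    · simp [h]
  have h3 : ∀ i, (∑ r, ∑ s, if (⟨i, r⟩ : B D) = b ∧ s = r then
      ∑ k, z (.inr (.inr ⟨i, k, r⟩)) * z (.inl (.inr ⟨i, k, s⟩)) else 0) =
      ∑ k, ∑ r, if srE ι (.inr ⟨i, k, r⟩) = ι b then
        z (.inl (.inr ⟨i, k, r⟩)) * z (.inr (.inr ⟨i, k, r⟩)) else 0 := by
    intro i
    rw [Finset.sum_comm (s := Finset.univ (α := Fin (D.w i)))]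
    refine Finset.sum_congr rfl fun r _ => ?_
    simp only [srE, hι.eq_iff]
    by_cases h : (⟨i, r⟩ : B D) = b
    · simp [h, mul_comm]
    · simp [h]
  have h4 : (∑ i, ∑ k, ∑ r, if tgE ι o (.inr ⟨i, k, r⟩) = ι b then
      z (.inl (.inr ⟨i, k, r⟩)) * z (.inr (.inr ⟨i, k, r⟩)) else 0) = 0 := by
    refine Finset.sum_eq_zero fun i _ => Finset.sum_eq_zero fun k _ =>
      Finset.sum_eq_zero fun r _ => if_neg ?_
    exact ho ⟨i, k, r⟩ b
  rw [h4, add_zero]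
  simp only [h1, h2, h3]
  ring

/-- the weights of the variables `s e` and `p e` -/
abbrev wt' (D : QData) : (E1 D ⊕ E2 D) ⊕ (E1 D ⊕ E2 D) → Gm (B D ⊕ Fl D) :=
  fun i => wE (chE (D := D)) (some i)

lemma hom_dE (t : D.I) (A : Fin (D.v t) → Fin (D.v t) →
    MvPolynomial ((E1 D ⊕ E2 D) ⊕ (E1 D ⊕ E2 D)) ℂ) (b b' : B D) (m : Gm (B D ⊕ Fl D))
    (h : ∀ r s, (⟨t, r⟩ : B D) = b → (⟨t, s⟩ : B D) = b' →
      IsWeightedHomogeneous (wt' D) (A r s) m) :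
    IsWeightedHomogeneous (wt' D) (dE t A b b') m := by
  classical
  refine IsWeightedHomogeneous.sum _ _ _ fun r _ => IsWeightedHomogeneous.sum _ _ _ fun s _ => ?_
  split_ifs with h1
  · exact h r s h1.1 h1.2
  · exact isWeightedHomogeneous_zero ℂ _ _

lemma hom_ent (b b' : B D) : IsWeightedHomogeneous (wt' D)
    (ent (X : _ → MvPolynomial ((E1 D ⊕ E2 D) ⊕ (E1 D ⊕ E2 D)) ℂ) b b') (rE b b', 2) := by
  classical
  have hX : ∀ e e', IsWeightedHomogeneous (wt' D) (X (.inl e) * X (.inr e') :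
      MvPolynomial ((E1 D ⊕ E2 D) ⊕ (E1 D ⊕ E2 D)) ℂ) (chE e + -chE e', 1 + 1) := fun e e' =>
    (isWeightedHomogeneous_X ℂ (wt' D) (.inl e)).mul (isWeightedHomogeneous_X ℂ (wt' D) (.inr e'))
  have h2 : (1 + 1 : ℤ) = 2 := rfl
  refine (IsWeightedHomogeneous.sub ?_ ?_).sub ?_
  · refine IsWeightedHomogeneous.sum _ _ _ fun a _ => hom_dE _ _ _ _ _ fun r s hr hs =>
      IsWeightedHomogeneous.sum _ _ _ fun c _ => ?_
    have h := hX (.inl ⟨a, r, c⟩) (.inl ⟨a, s, c⟩)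
    have h1 : (chE (.inl ⟨a, r, c⟩) + -chE (.inl ⟨a, s, c⟩) : B D ⊕ Fl D → ℤ) = rE b b' := by
      simp only [chE, rE, hr, hs]
      abel
    rw [h1] at h
    exact h
  · refine IsWeightedHomogeneous.sum _ _ _ fun a _ => hom_dE _ _ _ _ _ fun r s hr hs =>
      IsWeightedHomogeneous.sum _ _ _ fun c _ => ?_
    have h := hX (.inl ⟨a, c, s⟩) (.inl ⟨a, c, r⟩)
    have h1 : (chE (.inl ⟨a, c, s⟩) + -chE (.inl ⟨a, c, r⟩) : B D ⊕ Fl D → ℤ) = rE b b' := by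
      simp only [chE, rE, hr, hs]
      abel
    rw [h1, mul_comm] at h
    exact h
  · refine IsWeightedHomogeneous.sum _ _ _ fun i _ => hom_dE _ _ _ _ _ fun r s hr hs =>
      IsWeightedHomogeneous.sum _ _ _ fun c _ => ?_
    have h := hX (.inr ⟨i, c, s⟩) (.inr ⟨i, c, r⟩)
    have h1 : (chE (.inr ⟨i, c, s⟩) + -chE (.inr ⟨i, c, r⟩) : B D ⊕ Fl D → ℤ) = rE b b' := by
      simp only [chE, rE, hr, hs]
      abel
    rw [h1, mul_comm] at h
    exact h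

end

section
variable {T : Type} [Fintype T]

lemma lin_add (a b : T → ℤ) : lin (a + b) = lin a + lin b := by
  simp [lin, add_mul, Finset.sum_add_distrib]

lemma lin_sub (a b : T → ℤ) : lin (a - b) = lin a - lin b := by
  simp [lin, sub_mul, Finset.sum_sub_distrib]

lemma lin_single [DecidableEq T] (t : T) : lin (Pi.single t 1) = X t := by
  rw [lin, Finset.sum_eq_single t]
  · simp
  · intro s _ h
    simp [Pi.single_eq_of_ne h]
  · exact fun h => absurd (Finset.mem_univ _) h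

end

section
variable {D : QData} {C : Type} [CommRing C] [Algebra ℂ C] (x : B D → C) (t : Fl D → C)

/-- evaluation at the parameters `x`, `t` -/
def evl : MvPolynomial (B D ⊕ Fl D) ℂ →ₐ[ℂ] C := aeval (Sum.elim x t)

lemma evl_rE (b b' : B D) : evl x t (lin (rE b b')) = x b - x b' := by
  classical
  rw [rE, lin_sub, lin_single, lin_single]
  simp [evl]

lemma evl_chE1 (a : D.A) (s : Fin (D.v (D.tgt a))) (r : Fin (D.v (D.src a))) :
    evl x t (lin (chE (.inl ⟨a, s, r⟩))) = x ⟨D.tgt a, s⟩ - x ⟨D.src a, r⟩ + t (.inl a) := by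
  classical
  rw [chE, lin_add, lin_sub, lin_single, lin_single, lin_single]
  simp [evl]

lemma evl_chE2 (i : D.I) (k : Fin (D.w i)) (r : Fin (D.v i)) :
    evl x t (lin (chE (.inr ⟨i, k, r⟩))) = t (.inr ⟨i, k⟩) - x ⟨i, r⟩ := by
  classical
  rw [chE, lin_sub, lin_single, lin_single]
  simp [evl]

/-- pairs of different basis vectors of the same vertex -/
abbrev Od (D : QData) : Type := {p : Σ i : D.I, Fin (D.v i) × Fin (D.v i) // p.2.1 ≠ p.2.2}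

lemma evl_disc : evl x t (∏ p : Od D, lin (rE ⟨p.1.1, p.1.2.1⟩ ⟨p.1.1, p.1.2.2⟩)) =
    disc D x id := by
  classical
  rw [map_prod, disc, rts]
  simp only [evl_rE]
  rw [← Finset.prod_subtype (Finset.univ.filter fun p : Σ i : D.I, Fin (D.v i) × Fin (D.v i) =>
    p.2.1 ≠ p.2.2) (by simp) fun p => x ⟨p.1, p.2.1⟩ - x ⟨p.1, p.2.2⟩, Finset.prod_filter,
    Fintype.prod_sigma]
  refine Finset.prod_congr rfl fun i _ => ?_
  rw [Fintype.prod_prod_type]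
  refine Finset.prod_congr rfl fun r _ => Finset.prod_congr rfl fun s _ => ?_
  by_cases h : r = s
  · subst h
    simp
  · have h1 : ((r : ℕ) : ℤ) - ((s : ℕ) : ℤ) ≠ 0 := by
      intro h2
      apply h
      ext
      omega
    rw [if_pos h, if_neg h1]
    rfl

lemma evl_cut {V : Type} [Fintype V] [DecidableEq V] (ι : B D → V) (o : V) (j : ℤ)
    (S : Finset V)
    (h3 : ∀ i (_ : Fin (D.w i)) r, ((-(if ι ⟨i, r⟩ ∈ S then j + 1 else j)) ^ 2 = 1 ↔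
      ¬ (o ∈ S ↔ ι ⟨i, r⟩ ∈ S))) :
    evl x t (∏ e with ¬ (tgE ι o e ∈ S ↔ srE ι e ∈ S), lin (chE e)) =
      wts D x t (fun χ c => if c ^ 2 = 1 then χ else 1) fun b => if ι b ∈ S then j + 1 else j := by
  classical
  rw [Finset.prod_filter, prod_E, map_mul, wts]
  simp only [map_prod, apply_ite (evl x t), map_one, evl_chE1, evl_chE2]
  congr 1
  · refine Finset.prod_congr rfl fun a _ => ?_
    rw [Finset.prod_comm]
    refine Finset.prod_congr rfl fun r _ => Finset.prod_congr rfl fun s _ => ?_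
    refine if_congr ?_ rfl rfl
    simp only [tgE, srE]
    by_cases h1 : ι ⟨D.tgt a, s⟩ ∈ S <;> by_cases h2 : ι ⟨D.src a, r⟩ ∈ S <;> simp [h1, h2]
  · refine Finset.prod_congr rfl fun i _ => ?_
    rw [Finset.prod_comm]
    refine Finset.prod_congr rfl fun r _ => Finset.prod_congr rfl fun k _ => ?_
    exact if_congr (h3 i k r).symm rfl rfl

end

/-- if `Empty D j` is false, the moment map equation has a solution, except at `b₀` -/
theorem exists_sol {D : QData} {j : ℤ} (hE : ¬ Empty D j) {V : Type} [Fintype V] [DecidableEq V]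
    (ι : B D → V) (o b₀ : V) (hι : Function.Injective ι) (ho : ∀ (_ : E2 D) b, o ≠ ι b)
    (h1 : ∀ S : Finset V, S.Nonempty → b₀ ∉ S → ∃ b, ι b ∈ S) (h2 : j ≠ 0 → ∃ b, ι b = b₀)
    (h3 : ∀ S : Finset V, b₀ ∉ S → ∀ i (_ : Fin (D.w i)) r,
      ((-(if ι ⟨i, r⟩ ∈ S then j + 1 else j)) ^ 2 = 1 ↔ ¬ (o ∈ S ↔ ι ⟨i, r⟩ ∈ S)))
    (ν : V → ℂ) :
    ∃ z : (E1 D ⊕ E2 D) ⊕ (E1 D ⊕ E2 D) → ℂ, (∀ b, ι b ≠ b₀ → ent z b b = ν (ι b)) ∧
      ∀ i (r s : Fin (D.v i)), r ≠ s → ent z ⟨i, r⟩ ⟨i, s⟩ = 0 := by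
  classical
  rw [Q.Empty] at hE
  push Not at hE
  obtain ⟨C, iC, iA, x, t, hxt⟩ := hE
  have hcut : ∏ p : Od D, lin (rE ⟨p.1.1, p.1.2.1⟩ ⟨p.1.1, p.1.2.2⟩) ∉
      cutI (srE ι) (tgE ι o) chE b₀ := by
    intro h
    apply hxt
    rw [← evl_disc x t]
    have h4 : cutI (srE ι) (tgE ι o) (chE (D := D)) b₀ ≤ (cut D x t
        (fun χ c => if c ^ 2 = 1 then χ else 1) fun l => (∀ b, l b = j ∨ l b = j + 1) ∧
          (∃ b, l b ≠ j) ∧ (j ≠ 0 → ∃ b, l b = j)).comap (evl x t).toRingHom := by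
      rw [cutI, Ideal.span_le]
      rintro _ ⟨S, hS, hb, rfl⟩
      refine Ideal.subset_span ⟨fun b => if ι b ∈ S then j + 1 else j, ⟨fun b => ?_, ?_, ?_⟩, ?_⟩
      · by_cases h : ι b ∈ S
        · exact Or.inr (if_pos h)
        · exact Or.inl (if_neg h)
      · obtain ⟨b, hb⟩ := h1 S hS hb
        refine ⟨b, ?_⟩
        change (if ι b ∈ S then j + 1 else j) ≠ j
        rw [if_pos hb]
        omega
      · intro hj
        obtain ⟨b, rfl⟩ := h2 hj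
        exact ⟨b, if_neg hb⟩
      · exact evl_cut x t ι o j S (h3 S hb)
    exact h4 h
  obtain ⟨z, hz1, hz2⟩ := solvable (srE ι) (tgE ι o) chE b₀ ν
    (fun p : Od D => rE ⟨p.1.1, p.1.2.1⟩ ⟨p.1.1, p.1.2.2⟩)
    (fun p : Od D => ent X ⟨p.1.1, p.1.2.1⟩ ⟨p.1.1, p.1.2.2⟩) (fun p => hom_ent _ _) hcut
  refine ⟨z, fun b hb => ?_, fun i r s hrs => ?_⟩
  · rw [ent_diag hι ho]
    exact hz1 _ hb
  · have h5 := hz2 ⟨⟨i, r, s⟩, hrs⟩
    rw [show eval z (ent X (⟨i, r⟩ : B D) ⟨i, s⟩) = ent z ⟨i, r⟩ ⟨i, s⟩ from ?_] at h5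
    · exact h5
    · have h6 := map_ent (eval z) (X : _ → MvPolynomial ((E1 D ⊕ E2 D) ⊕ (E1 D ⊕ E2 D)) ℂ)
        (⟨i, r⟩ : B D) ⟨i, s⟩
      simpa using h6

lemma Cx_of_ent {D : QData} {ν : D.I → ℤ} {z : (E1 D ⊕ E2 D) ⊕ (E1 D ⊕ E2 D) → ℂ}
    (h1 : ∀ b : B D, ent z b b = ν b.1)
    (h2 : ∀ i (r s : Fin (D.v i)), r ≠ s → ent z ⟨i, r⟩ ⟨i, s⟩ = 0) : Cx ν (pt z) := by
  intro ξ
  rw [mom_pt]
  refine Finset.sum_congr rfl fun i _ => ?_
  rw [Matrix.trace, Finset.mul_sum]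
  refine Finset.sum_congr rfl fun r _ => ?_
  rw [Finset.sum_eq_single r]
  · rw [h1]
    rfl
  · intro s _ h
    rw [h2 i r s h.symm, zero_mul]
  · exact fun h => absurd (Finset.mem_univ _) h

/-- the framed case -/
theorem exists_Cx_framed {D : QData} (h : ¬ Empty D 0) (ν : D.I → ℤ) : ∃ x : Pt D, Cx ν x := by
  classical
  obtain ⟨z, h1, h2⟩ := exists_sol h (some : B D → Option (B D)) none none
    (Option.some_injective _) (fun _ b => (Option.some_ne_none b).symm)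
    (fun S hS hn => by
      obtain ⟨c, hc⟩ := hS
      cases c with
      | none => exact absurd hc hn
      | some b => exact ⟨b, hc⟩)
    (fun h => absurd rfl h)
    (fun S hn i _ r => by
      by_cases hr : (some ⟨i, r⟩ : Option (B D)) ∈ S <;> simp [hr, hn])
    (fun c => c.elim 0 fun b => (ν b.1 : ℂ))
  exact ⟨pt z, Cx_of_ent (fun b => h1 b (Option.some_ne_none b)) h2⟩

/-- the data without framing -/
def unf (D : QData) : QData := {D with w := fun _ => 0, tw := fun _ k => k.elim0}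

lemma not_Empty_unf {D : QData} (h : ¬ Empty D 2) : ¬ Empty (unf D) 2 := by
  intro h1
  apply h
  intro C _ _ x t
  have h2 := h1 C x (Sum.elim (fun a => t (.inl a)) fun p => p.2.elim0)
  have h3 : disc (unf D) x id = disc D x id := rfl
  rw [h3] at h2
  refine Ideal.span_mono ?_ h2
  rintro _ ⟨l, hl, rfl⟩
  refine ⟨l, hl, ?_⟩
  have key : ∀ c : ℤ, c = 2 ∨ c = 2 + 1 → ¬ (-c) ^ 2 = 1 := by
    rintro c (rfl | rfl) <;> norm_num
  unfold wts
  refine congrArg₂ (· * ·) rfl ?_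
  rw [Finset.prod_eq_one, Finset.prod_eq_one]
  · intro i _
    refine Finset.prod_eq_one fun r _ => Finset.prod_eq_one fun k _ => if_neg ?_
    exact key _ (hl.1 ⟨i, r⟩)
  · intro i _
    exact Finset.prod_eq_one fun r _ => Finset.prod_eq_one fun k _ => k.elim0

/-- the unframed case -/
theorem exists_Cx_unframed {D : QData} (h : ¬ Empty D 2) {ν : D.I → ℤ} (hv : D.v ≠ 0)
    (h0 : ∑ i, ν i * (D.v i : ℤ) = 0) : ∃ x : Pt D, Uf x ∧ Cx ν x := by
  classical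
  obtain ⟨i₀, hi₀⟩ := Function.ne_iff.1 hv
  let b₀ : B (unf D) := ⟨i₀, ⟨0, Nat.pos_of_ne_zero hi₀⟩⟩
  have hw : ∀ i, ∀ _ : Fin ((unf D).w i), False := fun i k => k.elim0
  obtain ⟨z, h1, h2⟩ := exists_sol (not_Empty_unf h) (id : B (unf D) → B (unf D)) b₀ b₀
    Function.injective_id (fun e => (hw e.1 e.2.1).elim) (fun S hS _ => hS)
    (fun _ => ⟨b₀, rfl⟩) (fun S hn i k r => (hw i k).elim) (fun b => (ν b.1 : ℂ))
  have h3 : ∀ ξ : Lg (unf D), (∑ k, ((pt z).j k * -((pt z).i k * ξ k)).trace) = 0 := by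
    intro ξ
    refine Finset.sum_eq_zero fun k _ => ?_
    have : IsEmpty (Fin ((unf D).w k)) := ⟨hw k⟩
    rw [Matrix.mul_neg, Matrix.trace_neg]
    simp [Matrix.trace, Matrix.mul_apply]
  have h4 : mom (pt z) (fun _ => 1) = 0 := by
    rw [mom, h3, add_zero]
    exact Finset.sum_eq_zero fun a _ => by simp
  have h5 : ∑ b : B (unf D), ent z b b = 0 := by
    rw [mom_pt] at h4
    rw [← h4, Fintype.sum_sigma]
    refine Finset.sum_congr rfl fun i _ => Finset.sum_congr rfl fun r _ => ?_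
    rw [Finset.sum_eq_single r]
    · simp
    · intro s _ h
      rw [Matrix.one_apply_ne h, mul_zero]
    · exact fun h => absurd (Finset.mem_univ _) h
  have h6 : ∑ b : B (unf D), (ν b.1 : ℂ) = 0 := by
    rw [Fintype.sum_sigma]
    simp only [Finset.sum_const, Finset.card_univ, Fintype.card_fin, nsmul_eq_mul]
    have h7 := congrArg (Int.cast : ℤ → ℂ) h0
    rw [Int.cast_sum, Int.cast_zero] at h7
    rw [← h7]
    refine Finset.sum_congr rfl fun i _ => ?_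
    push_cast
    exact mul_comm _ _
  have h8 : ∀ b : B (unf D), ent z b b = ν b.1 := by
    intro b
    by_cases hb : b = b₀
    · rw [← Finset.add_sum_erase _ _ (Finset.mem_univ b₀)] at h5 h6
      have h9 : ∑ b ∈ Finset.univ.erase b₀, ent z b b =
          ∑ b ∈ Finset.univ.erase b₀, (ν b.1 : ℂ) :=
        Finset.sum_congr rfl fun b hb => h1 b (Finset.ne_of_mem_erase hb)
      rw [h9] at h5
      rw [hb]
      exact add_right_cancel (h5.trans h6.symm)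
    · exact h1 b hb
  have h9 : Cx (D := unf D) ν (pt z) := Cx_of_ent h8 h2
  refine ⟨⟨(pt z).s, (pt z).p, 0, 0⟩, ⟨rfl, rfl⟩, fun ξ => ?_⟩
  refine Eq.trans ?_ (h9 ξ)
  unfold mom
  refine congrArg₂ (· + ·) rfl ?_
  refine Eq.trans ?_ (h3 ξ).symm
  refine Finset.sum_eq_zero fun k _ => ?_
  change ((0 : Matrix (Fin (D.v k)) (Fin (D.w k)) ℂ) *
    -((0 : Matrix (Fin (D.w k)) (Fin (D.v k)) ℂ) * ξ k)).trace = 0
  rw [Matrix.zero_mul, Matrix.trace_zero]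

end

end Vale.Agent.P291.RG
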