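import Mathlib
import Vale.Agent.P291.T.QF

set_option autoImplicit false

/-! Points of `N ⊕ N^*`, the moment map, the action of `G`, King's stability, regular characters. -/

namespace Vale.Agent.P291.RG

open Vale.Agent.P291.Q Matrix

/-- points of `N ⊕ N^*` -/
@[ext] structure Pt (D : QData) where
  s : (a : D.A) → Matrix (Fin (D.v (D.tgt a))) (Fin (D.v (D.src a))) ℂ
  p : (a : D.A) → Matrix (Fin (D.v (D.src a))) (Fin (D.v (D.tgt a))) ℂ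
  i : (k : D.I) → Matrix (Fin (D.w k)) (Fin (D.v k)) ℂ
  j : (k : D.I) → Matrix (Fin (D.v k)) (Fin (D.w k)) ℂ

variable {D : QData}

/-- `Lie G` -/
abbrev Lg (D : QData) : Type := (k : D.I) → Matrix (Fin (D.v k)) (Fin (D.v k)) ℂ

/-- the moment map `⟨μ(s, p), ξ⟩ = ⟨p, ξ s⟩` -/
noncomputable def mom (x : Pt D) (ξ : Lg D) : ℂ :=
  (∑ a, (x.p a * (ξ (D.tgt a) * x.s a - x.s a * ξ (D.src a))).trace) +
    ∑ k, (x.j k * -(x.i k * ξ k)).trace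

/-- the group `G` -/
abbrev Gg (D : QData) : Type := (k : D.I) → GL (Fin (D.v k)) ℂ

/-- the action of `G` -/
noncomputable def gact (g : Gg D) (x : Pt D) : Pt D where
  s a := (g (D.tgt a)).1 * x.s a * (g (D.src a))⁻¹.1
  p a := (g (D.src a)).1 * x.p a * (g (D.tgt a))⁻¹.1
  i k := x.i k * (g k)⁻¹.1
  j k := (g k).1 * x.j k

/-- families of subspaces of the `V k` -/
abbrev Fam (D : QData) : Type := (k : D.I) → Submodule ℂ (Fin (D.v k) → ℂ)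

/-- families of subspaces stable under the maps of the arrows -/
def Inv (x : Pt D) (U : Fam D) : Prop :=
  (∀ a, ∀ u ∈ U (D.src a), x.s a *ᵥ u ∈ U (D.tgt a)) ∧
    ∀ a, ∀ u ∈ U (D.tgt a), x.p a *ᵥ u ∈ U (D.src a)

/-- `ν · dim U` -/
noncomputable def nd (ν : D.I → ℤ) (U : Fam D) : ℤ := ∑ k, ν k * Module.finrank ℂ (U k)

/-- `U ⊆ ker i` -/
def Kr (x : Pt D) (U : Fam D) : Prop := ∀ k, ∀ u ∈ U k, x.i k *ᵥ u = 0

/-- `U ⊇ im j` -/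
def Im (x : Pt D) (U : Fam D) : Prop := ∀ k, ∀ y, x.j k *ᵥ y ∈ U k

/-- `ν`-semistable points (King) -/
def Sst (ν : D.I → ℤ) (x : Pt D) : Prop :=
  ∀ U : Fam D, Inv x U → (Kr x U → 0 ≤ nd ν U) ∧ (Im x U → nd ν (⊤ : Fam D) ≤ nd ν U)

/-- `ν`-stable points (King) -/
def Sta (ν : D.I → ℤ) (x : Pt D) : Prop :=
  ∀ U : Fam D, Inv x U → (Kr x U → U ≠ ⊥ → 0 < nd ν U) ∧ (Im x U → U ≠ ⊤ → nd ν (⊤ : Fam D) < nd ν U)

/-- regular characters -/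
def Regular (D : QData) (ν : D.I → ℤ) : Prop :=
  (∀ x : Pt D, mom x = 0 → (Sst ν x ↔ Sta ν x)) ∧
    ∀ x : Pt D, mom x = 0 → Sta ν x → ∀ g : Gg D, gact g x = x → g = 1

/-- solutions of `μ_ℂ = ν` -/
def Cx (ν : D.I → ℤ) (x : Pt D) : Prop := ∀ ξ : Lg D, mom x ξ = ∑ k, (ν k : ℂ) * (ξ k).trace

/-- the real moment map -/
noncomputable def rmom (x : Pt D) (ξ : Lg D) : ℂ :=
  (∑ a, ((ξ (D.tgt a) * (x.s a * (x.s a)ᴴ - (x.p a)ᴴ * x.p a)).trace +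
    (ξ (D.src a) * (x.p a * (x.p a)ᴴ - (x.s a)ᴴ * x.s a)).trace)) +
    ∑ k, (ξ k * (x.j k * (x.j k)ᴴ - (x.i k)ᴴ * x.i k)).trace

/-- solutions of `μ_ℂ = 0`, `μ_ℝ = 2 ν` -/
def Rl (ν : D.I → ℤ) (x : Pt D) : Prop :=
  mom x = 0 ∧ ∀ ξ : Lg D, rmom x ξ = 2 * ∑ k, (ν k : ℂ) * (ξ k).trace

/-- points without framing part -/
def Uf (x : Pt D) : Prop := x.i = 0 ∧ x.j = 0

end Vale.Agent.P291.RG
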