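import Vale.Agent.P291.RG.Base

set_option autoImplicit false

/-! Rank-nullity for Hilbert functions (helper806). -/

namespace Vale.Agent.P291.RG

open MvPolynomial

variable {σ T : Type}

/-- components of a product with a homogeneous polynomial -/
lemma comp_mul (w : σ → Gm T) {f : MvPolynomial σ ℂ} {g : Gm T}
    (hf' : IsWeightedHomogeneous w f g) (x : MvPolynomial σ ℂ) (γ : Gm T) :
    weightedHomogeneousComponent w (g + γ) (f * x) = f * weightedHomogeneousComponent w γ x := by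
  classical
  let _ := MvPolynomial.weightedGradedAlgebra ℂ w
  have h := DirectSum.coe_decompose_mul_add_of_left_mem (weightedHomogeneousSubmodule ℂ w)
    (i := g) (j := γ) (a := f) (b := x) hf'
  have h1 : ∀ (y : MvPolynomial σ ℂ) (δ : Gm T),
      (DirectSum.decompose (weightedHomogeneousSubmodule ℂ w) y δ : MvPolynomial σ ℂ) =
        weightedHomogeneousComponent w δ y :=
    fun y δ => weightedDecomposition.decompose'_apply ℂ w y δ
  rwa [h1, h1] at h

lemma comp_mul' (w : σ → Gm T) {f : MvPolynomial σ ℂ} {g : Gm T}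
    (hf' : IsWeightedHomogeneous w f g) (x : MvPolynomial σ ℂ) (γ : Gm T) :
    weightedHomogeneousComponent w γ (f * x) =
      f * weightedHomogeneousComponent w (γ - g) x := by
  rw [← comp_mul w hf', add_sub_cancel]

lemma comp_same (w : σ → Gm T) {x : MvPolynomial σ ℂ} {γ : Gm T}
    (h : x ∈ weightedHomogeneousSubmodule ℂ w γ) : weightedHomogeneousComponent w γ x = x :=
  IsWeightedHomogeneous.weightedHomogeneousComponent_same h

lemma fin_wt [Finite σ] (w : σ → Gm T) (hw : ∀ i, 0 < (w i).2) (γ : Gm T) :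
    {d : σ →₀ ℕ | Finsupp.weight w d = γ}.Finite := by
  refine (Finsupp.finite_of_nat_weight_le (fun i => (w i).2.toNat) (fun i => ?_)
    γ.2.toNat).subset ?_
  · have := hw i
    omega
  · intro d hd
    simp only [Set.mem_ofPred_eq] at hd ⊢
    have h : ((Finsupp.weight (fun i => (w i).2.toNat) d : ℕ) : ℤ) = γ.2 := by
      rw [← hd]
      simp only [Finsupp.weight_apply, Finsupp.sum, Prod.snd_sum, Nat.cast_sum]
      refine Finset.sum_congr rfl fun i _ => ?_
      have := hw i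
      rw [Prod.smul_snd, smul_eq_mul, Nat.cast_mul, nsmul_eq_mul, Int.toNat_of_nonneg this.le]
    omega

lemma fin_piece [Finite σ] (w : σ → Gm T) (hw : ∀ i, 0 < (w i).2) (γ : Gm T) :
    Module.Finite ℂ ↥(weightedHomogeneousSubmodule ℂ w γ) := by
  rw [weightedHomogeneousSubmodule_eq_finsupp_supported]
  have := (fin_wt w hw γ).to_subtype
  exact Module.Finite.of_basis (basisRestrictSupport ℂ {d | Finsupp.weight w d = γ})

lemma fin_inf [Finite σ] (w : σ → Gm T) (hw : ∀ i, 0 < (w i).2) (γ : Gm T)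
    (L : Submodule ℂ (MvPolynomial σ ℂ)) :
    Module.Finite ℂ ↥(L ⊓ weightedHomogeneousSubmodule ℂ w γ) := by
  have := fin_piece w hw γ
  exact Submodule.finiteDimensional_inf_right L _

lemma finrank_map_add {V V' : Type*} [AddCommGroup V] [Module ℂ V] [AddCommGroup V'] [Module ℂ V']
    (A : Submodule ℂ V) (φ : V →ₗ[ℂ] V') [Module.Finite ℂ A] :
    Module.finrank ℂ ↥(A.map φ) + Module.finrank ℂ ↥(A ⊓ LinearMap.ker φ) = Module.finrank ℂ A := by
  have h := LinearMap.finrank_range_add_finrank_ker (φ.domRestrict A)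
  rw [LinearMap.range_domRestrict, LinearMap.ker_domRestrict] at h
  rw [← h]
  congr 1
  rw [← Submodule.map_comap_subtype, Submodule.finrank_map_subtype_eq]

/-- the piece of an image -/
lemma piece_img (w : σ → Gm T) {f : MvPolynomial σ ℂ} {g : Gm T}
    (hf' : IsWeightedHomogeneous w f g) {L N : Submodule ℂ (MvPolynomial σ ℂ)} (hL : Hmg w L)
    (hN : Hmg w N) (γ : Gm T) :
    (img f L ⊔ N) ⊓ weightedHomogeneousSubmodule ℂ w γ =
      img f (L ⊓ weightedHomogeneousSubmodule ℂ w (γ - g)) ⊔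
        (N ⊓ weightedHomogeneousSubmodule ℂ w γ) := by
  apply le_antisymm
  · rintro x ⟨hx, hx'⟩
    obtain ⟨y, hy, z, hz, rfl⟩ := Submodule.mem_sup.1 hx
    obtain ⟨a, ha, rfl⟩ := hy
    rw [← comp_same w hx', map_add]
    refine Submodule.add_mem_sup ?_ ⟨hN z hz γ, weightedHomogeneousComponent_mem w z γ⟩
    refine ⟨weightedHomogeneousComponent w (γ - g) a,
      ⟨hL a ha _, weightedHomogeneousComponent_mem w a _⟩, ?_⟩
    simp only [LinearMap.mulLeft_apply]
    rw [comp_mul' w hf']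
  · refine sup_le ?_ (inf_le_inf_right _ le_sup_right)
    rintro x ⟨a, ⟨ha, ha'⟩, rfl⟩
    refine ⟨Submodule.mem_sup_left ⟨a, ha, rfl⟩, ?_⟩
    have h := (IsWeightedHomogeneous.mul hf' ha')
    rw [add_sub_cancel] at h
    exact h

/-- the piece of a preimage -/
lemma piece_pre (w : σ → Gm T) {f : MvPolynomial σ ℂ} {g : Gm T}
    (hf' : IsWeightedHomogeneous w f g) (L N : Submodule ℂ (MvPolynomial σ ℂ)) (γ : Gm T) :
    (L ⊓ pre f N) ⊓ weightedHomogeneousSubmodule ℂ w (γ - g) =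
      (L ⊓ weightedHomogeneousSubmodule ℂ w (γ - g)) ⊓
        pre f (N ⊓ weightedHomogeneousSubmodule ℂ w γ) := by
  ext x
  constructor
  · rintro ⟨⟨h1, h2⟩, h3⟩
    refine ⟨⟨h1, h3⟩, ⟨h2, ?_⟩⟩
    have h := (IsWeightedHomogeneous.mul hf' h3)
    rw [add_sub_cancel] at h
    exact h
  · rintro ⟨⟨h1, h3⟩, ⟨h2, _⟩⟩
    exact ⟨⟨h1, h2⟩, h3⟩

/-- rank-nullity -/
theorem hf_mul [Finite σ] (w : σ → Gm T) (hw : ∀ i, 0 < (w i).2) {f : MvPolynomial σ ℂ} {g : Gm T}
    (hf' : IsWeightedHomogeneous w f g) {L N : Submodule ℂ (MvPolynomial σ ℂ)} (hL : Hmg w L)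
    (hN : Hmg w N) :
    act (cl g) (hf w L - hf w (L ⊓ pre f N)) = hf w (img f L ⊔ N) - hf w N := by
  funext γ
  rw [act_cl]
  simp only [Pi.sub_apply, hf]
  rw [piece_img w hf' hL hN, piece_pre w hf']
  set A := L ⊓ weightedHomogeneousSubmodule ℂ w (γ - g) with hA
  set B := N ⊓ weightedHomogeneousSubmodule ℂ w γ with hB
  have fA : Module.Finite ℂ A := fin_inf w hw _ L
  have fB : Module.Finite ℂ B := fin_inf w hw _ N
  have fC : Module.Finite ℂ ↥(A ⊓ pre f B) := Submodule.finiteDimensional_inf_left A _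
  have fD : Module.Finite ℂ ↥(img f A) := Module.Finite.map A _
  have h1 := finrank_map_add A (LinearMap.mulLeft ℂ f)
  have h2 := finrank_map_add (A ⊓ pre f B) (LinearMap.mulLeft ℂ f)
  have h3 := Submodule.finrank_sup_add_finrank_inf_eq (img f A) B
  have e1 : (A ⊓ pre f B) ⊓ LinearMap.ker (LinearMap.mulLeft ℂ f) =
      A ⊓ LinearMap.ker (LinearMap.mulLeft ℂ f) := by
    ext x
    constructor
    · rintro ⟨⟨a, _⟩, c⟩
      exact ⟨a, c⟩
    · rintro ⟨a, c⟩
      refine ⟨⟨a, ?_⟩, c⟩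
      show LinearMap.mulLeft ℂ f x ∈ B
      rw [LinearMap.mem_ker.1 c]
      exact B.zero_mem
  have e2 : (A ⊓ pre f B).map (LinearMap.mulLeft ℂ f) = img f A ⊓ B := by
    ext x
    constructor
    · rintro ⟨a, ⟨h, h'⟩, rfl⟩
      exact ⟨⟨a, h, rfl⟩, h'⟩
    · rintro ⟨⟨a, h, rfl⟩, h'⟩
      exact ⟨a, ⟨h, h'⟩, rfl⟩
  rw [e1, e2] at h2
  have e3 : A.map (LinearMap.mulLeft ℂ f) = img f A := rfl
  rw [e3] at h1
  omega

/-- the step of the induction -/
theorem hf_step [Finite σ] (w : σ → Gm T) (hw : ∀ i, 0 < (w i).2) {f : MvPolynomial σ ℂ} {g : Gm T}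
    (hf' : IsWeightedHomogeneous w f g) {L K : Submodule ℂ (MvPolynomial σ ℂ)} (hL : Hmg w L)
    (hK : Hmg w K) :
    act (1 - cl g) (hf w L - hf w K) =
      (hf w L - hf w (img f L ⊔ K)) - act (cl g) (hf w (L ⊓ pre f K) - hf w K) := by
  have h := hf_mul w hw hf' hL hK
  rw [map_sub] at h
  have e : (act (1 - cl g) : Module.End ℤ (Gm T → ℤ)) = 1 - act (cl g) := by
    rw [map_sub, map_one]
  rw [e, LinearMap.sub_apply, Module.End.one_apply, map_sub, map_sub]
  have h' := congrArg (fun z => z + act (cl g) (hf w (L ⊓ pre f K))) h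
  simp only [sub_add_cancel] at h'
  rw [h']
  abel

/-! ### homogeneous subspaces -/

lemma Hmg_top (w : σ → Gm T) : Hmg w (⊤ : Submodule ℂ (MvPolynomial σ ℂ)) :=
  fun _ _ _ => Submodule.mem_top

lemma Hmg_bot (w : σ → Gm T) : Hmg w (⊥ : Submodule ℂ (MvPolynomial σ ℂ)) := by
  intro x hx γ
  rw [(Submodule.mem_bot ℂ).1 hx, map_zero]
  exact Submodule.zero_mem _

lemma Hmg_inf {w : σ → Gm T} {L N : Submodule ℂ (MvPolynomial σ ℂ)} (hL : Hmg w L)
    (hN : Hmg w N) : Hmg w (L ⊓ N) :=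
  fun x hx γ => ⟨hL x hx.1 γ, hN x hx.2 γ⟩

lemma Hmg_sup {w : σ → Gm T} {L N : Submodule ℂ (MvPolynomial σ ℂ)} (hL : Hmg w L)
    (hN : Hmg w N) : Hmg w (L ⊔ N) := by
  intro x hx γ
  obtain ⟨y, hy, z, hz, rfl⟩ := Submodule.mem_sup.1 hx
  rw [map_add]
  exact Submodule.add_mem_sup (hL y hy γ) (hN z hz γ)

lemma Hmg_img {w : σ → Gm T} {f : MvPolynomial σ ℂ} {g : Gm T}
    (hf' : IsWeightedHomogeneous w f g) {L : Submodule ℂ (MvPolynomial σ ℂ)} (hL : Hmg w L) :
    Hmg w (img f L) := by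
  rintro x ⟨a, ha, rfl⟩ γ
  refine ⟨weightedHomogeneousComponent w (γ - g) a, hL a ha _, ?_⟩
  simp only [LinearMap.mulLeft_apply]
  rw [comp_mul' w hf']

lemma Hmg_pre {w : σ → Gm T} {f : MvPolynomial σ ℂ} {g : Gm T}
    (hf' : IsWeightedHomogeneous w f g) {N : Submodule ℂ (MvPolynomial σ ℂ)} (hN : Hmg w N) :
    Hmg w (pre f N) := by
  intro x hx γ
  show f * _ ∈ N
  rw [← comp_mul w hf']
  exact hN _ hx _

lemma Hmg_span {w : σ → Gm T} {S : Set (MvPolynomial σ ℂ)}
    (h : ∀ x ∈ S, ∃ γ, IsWeightedHomogeneous w x γ) : Hmg w (Submodule.span ℂ S) := by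
  intro x hx γ
  induction hx using Submodule.span_induction with
  | mem x hx =>
    obtain ⟨δ, hδ⟩ := h x hx
    by_cases e : γ = δ
    · subst e
      rw [IsWeightedHomogeneous.weightedHomogeneousComponent_same hδ]
      exact Submodule.subset_span hx
    · rw [IsWeightedHomogeneous.weightedHomogeneousComponent_ne γ hδ e]
      exact Submodule.zero_mem _
  | zero => rw [map_zero]; exact Submodule.zero_mem _
  | add x y _ _ hx hy => rw [map_add]; exact Submodule.add_mem _ hx hy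
  | smul c x _ hx => rw [map_smul]; exact Submodule.smul_mem _ c hx

end Vale.Agent.P291.RG
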