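import Vale.Agent.P291.RG.HF

set_option autoImplicit false

/-! The Hilbert series of the polynomial ring, and the iteration over a list of homogeneous
polynomials (helper806). -/

namespace Vale.Agent.P291.RG

open MvPolynomial

variable {σ T : Type}

/-! ### the Hilbert series of the polynomial ring -/

/-- the ideal generated by the variables in `A` -/
def Iv (A : Set σ) : Submodule ℂ (MvPolynomial σ ℂ) where
  carrier := {p | ∀ d : σ →₀ ℕ, (∀ i ∈ A, d i = 0) → coeff d p = 0}
  add_mem' {p q} hp hq d hd := by rw [coeff_add, hp d hd, hq d hd, add_zero]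
  zero_mem' d _ := coeff_zero d
  smul_mem' c p hp d hd := by rw [coeff_smul, hp d hd, smul_zero]

lemma mem_Iv {A : Set σ} {p : MvPolynomial σ ℂ} :
    p ∈ Iv A ↔ ∀ d : σ →₀ ℕ, (∀ i ∈ A, d i = 0) → coeff d p = 0 := Iff.rfl

lemma Hmg_Iv (w : σ → Gm T) (A : Set σ) : Hmg w (Iv A) := by
  classical
  intro x hx γ d hd
  rw [coeff_weightedHomogeneousComponent]
  split_ifs
  · exact hx d hd
  · rfl

lemma Iv_empty : Iv (∅ : Set σ) = ⊥ := by
  refine (Submodule.eq_bot_iff _).2 fun p hp => ?_
  ext d
  rw [coeff_zero]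
  exact hp d (fun i hi => absurd hi (Set.notMem_empty i))

lemma pre_Iv {A : Set σ} {i : σ} (hi : i ∉ A) : pre (X i) (Iv A) = Iv A := by
  classical
  ext p
  constructor
  · intro h d hd
    have h' := h (d + Finsupp.single i 1) (fun k hk => by
      have : i ≠ k := fun e => hi (e ▸ hk)
      simp [hd k hk, this])
    simp only [LinearMap.mulLeft_apply] at h'
    rwa [add_comm, coeff_X_mul] at h'
  · intro h d hd
    simp only [LinearMap.mulLeft_apply]
    rw [coeff_X_mul']
    split_ifs
    · refine h _ fun k hk => ?_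
      simp [hd k hk]
    · rfl

lemma img_Iv (A : Set σ) (i : σ) : img (X i) ⊤ ⊔ Iv A = Iv (insert i A) := by
  classical
  apply le_antisymm
  · refine sup_le ?_ fun p hp d hd => hp d fun k hk => hd k (Set.mem_insert_of_mem _ hk)
    rintro _ ⟨a, _, rfl⟩ d hd
    simp only [LinearMap.mulLeft_apply]
    rw [coeff_X_mul', if_neg]
    rw [Finsupp.notMem_support_iff]
    exact hd i (Set.mem_insert _ _)
  · intro p hp
    rw [← divMonomial_add_modMonomial_single p i]
    refine Submodule.add_mem_sup ⟨_, Submodule.mem_top, rfl⟩ fun d hd => ?_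
    by_cases h : Finsupp.single i 1 ≤ d
    · exact coeff_modMonomial_of_le p h
    · rw [coeff_modMonomial_of_not_le p h]
      refine hp d fun k hk => ?_
      rcases Set.mem_insert_iff.1 hk with rfl | hk
      · rw [Finsupp.single_le_iff] at h
        omega
      · exact hd k hk

lemma hf_bot (w : σ → Gm T) : hf w (⊥ : Submodule ℂ (MvPolynomial σ ℂ)) = 0 := by
  funext γ
  simp [hf]

lemma one_sub (g : Gm T) (h : Gm T → ℤ) : act (1 - cl g) h = h - act (cl g) h := by
  rw [map_sub, map_one, LinearMap.sub_apply, Module.End.one_apply]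

lemma prod_Iv [Fintype σ] (w : σ → Gm T) (hw : ∀ i, 0 < (w i).2) (A : Finset σ) :
    act (∏ i ∈ A, (1 - cl (w i))) (hf w ⊤) = hf w ⊤ - hf w (Iv (A : Set σ)) := by
  classical
  induction A using Finset.induction_on with
  | empty =>
    rw [Finset.prod_empty, map_one, Module.End.one_apply, Finset.coe_empty, Iv_empty, hf_bot,
      sub_zero]
  | insert i A hi ih =>
    rw [Finset.prod_insert hi, map_mul, Module.End.mul_apply, ih, one_sub]
    have h := hf_mul w hw (isWeightedHomogeneous_X ℂ w i) (Hmg_top w) (Hmg_Iv w (A : Set σ))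
    rw [pre_Iv (by simpa using hi), top_inf_eq, img_Iv] at h
    rw [h, Finset.coe_insert]
    abel

lemma wt_zero (w : σ → Gm T) (hw : ∀ i, 0 < (w i).2) {d : σ →₀ ℕ}
    (h : Finsupp.weight w d = 0) : d = 0 := by
  have h2 : (Finsupp.weight w d).2 = 0 := by rw [h]; rfl
  rw [Finsupp.weight_apply, Finsupp.sum, Prod.snd_sum] at h2
  rw [Finset.sum_eq_zero_iff_of_nonneg] at h2
  · ext i
    by_contra hi
    have h3 := h2 i (Finsupp.mem_support_iff.2 hi)
    rw [Prod.smul_snd, nsmul_eq_mul, mul_eq_zero] at h3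
    rcases h3 with h3 | h3
    · exact hi (by exact_mod_cast h3)
    · have := hw i
      omega
  · intro i _
    rw [Prod.smul_snd]
    exact nsmul_nonneg (hw i).le _

theorem prod_one_sub_hf_top [Fintype σ] (w : σ → Gm T) (hw : ∀ i, 0 < (w i).2) :
    act (∏ i, (1 - cl (w i))) (hf w ⊤) = dl T := by
  classical
  rw [prod_Iv w hw]
  funext γ
  simp only [Pi.sub_apply, hf, dl, Pi.single_apply]
  split_ifs with h
  · subst h
    have e1 : weightedHomogeneousSubmodule ℂ w (0 : Gm T) = Submodule.span ℂ {1} := by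
      apply le_antisymm
      · intro p hp
        rw [Submodule.mem_span_singleton]
        refine ⟨coeff 0 p, ?_⟩
        ext d
        by_cases hd : d = 0
        · subst hd
          simp
        · rw [coeff_smul, coeff_one, if_neg (Ne.symm hd), smul_zero]
          by_contra hc
          exact hd (wt_zero w hw (hp (Ne.symm hc)))
      · rw [Submodule.span_singleton_le_iff_mem]
        exact isWeightedHomogeneous_one ℂ w
    have e2 : (Iv (Finset.univ : Finset σ) : Submodule ℂ (MvPolynomial σ ℂ)) ⊓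
        weightedHomogeneousSubmodule ℂ w (0 : Gm T) = ⊥ := by
      refine (Submodule.eq_bot_iff _).2 fun p hp => ?_
      obtain ⟨hp1, hp2⟩ := hp
      ext d
      rw [coeff_zero]
      by_cases hd : d = 0
      · subst hd
        exact hp1 0 (fun i _ => rfl)
      · by_contra hc
        exact hd (wt_zero w hw (hp2 hc))
    rw [e2, top_inf_eq, e1, finrank_bot, finrank_span_singleton one_ne_zero]
    simp
  · have e : (Iv (Finset.univ : Finset σ) : Submodule ℂ (MvPolynomial σ ℂ)) ⊓
        weightedHomogeneousSubmodule ℂ w γ = weightedHomogeneousSubmodule ℂ w γ := by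
      refine inf_eq_right.2 fun p hp d hd => ?_
      have h0 : d = 0 := by
        ext i
        exact hd i (by simp)
      subst h0
      by_contra hc
      have := hp hc
      rw [map_zero] at this
      exact h this.symm
    rw [e, top_inf_eq, sub_self]

/-! ### the iteration -/

lemma stb_mul {L : Submodule ℂ (MvPolynomial σ ℂ)} (h : Stb Set.univ L)
    (p : MvPolynomial σ ℂ) {x : MvPolynomial σ ℂ} (hx : x ∈ L) : p * x ∈ L := by
  induction p using MvPolynomial.induction_on generalizing x with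
  | C a => rw [← smul_eq_C_mul]; exact L.smul_mem a hx
  | add p q hp hq => rw [add_mul]; exact L.add_mem (hp hx) (hq hx)
  | mul_X p i hp => rw [mul_assoc]; exact hp (h i (Set.mem_univ i) x hx)

lemma stb_img {L : Submodule ℂ (MvPolynomial σ ℂ)} (h : Stb Set.univ L) (f : MvPolynomial σ ℂ) :
    Stb Set.univ (img f L) := by
  rintro i hi _ ⟨a, ha, rfl⟩
  refine ⟨X i * a, h i hi a ha, ?_⟩
  simp only [LinearMap.mulLeft_apply]
  ring

lemma stb_pre {L : Submodule ℂ (MvPolynomial σ ℂ)} (h : Stb Set.univ L) (f : MvPolynomial σ ℂ) :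
    Stb Set.univ (pre f L) := by
  intro i hi x hx
  show f * (X i * x) ∈ L
  rw [mul_left_comm]
  exact h i hi _ hx

lemma stb_sup {L K : Submodule ℂ (MvPolynomial σ ℂ)} (h : Stb Set.univ L)
    (h' : Stb Set.univ K) : Stb Set.univ (L ⊔ K) := by
  intro i hi x hx
  obtain ⟨y, hy, z, hz, rfl⟩ := Submodule.mem_sup.1 hx
  rw [mul_add]
  exact Submodule.add_mem_sup (h i hi y hy) (h' i hi z hz)

lemma stb_inf {L K : Submodule ℂ (MvPolynomial σ ℂ)} (h : Stb Set.univ L)
    (h' : Stb Set.univ K) : Stb Set.univ (L ⊓ K) :=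
  fun i hi x hx => ⟨h i hi x hx.1, h' i hi x hx.2⟩

lemma img_le {L : Submodule ℂ (MvPolynomial σ ℂ)} (h : Stb Set.univ L) (f : MvPolynomial σ ℂ) :
    img f L ≤ L := by
  rintro _ ⟨a, ha, rfl⟩
  exact stb_mul h f ha

/-- pairs `K ≤ L` of homogeneous ideals with `f L ≤ K` for all `f ∈ X` -/
def Pa (w : σ → Gm T) (X : Set (MvPolynomial σ ℂ)) (L K : Submodule ℂ (MvPolynomial σ ℂ)) : Prop :=
  K ≤ L ∧ Hmg w L ∧ Hmg w K ∧ Stb Set.univ L ∧ Stb Set.univ K ∧ ∀ f ∈ X, img f L ≤ K

/-- the group generated by the differences of the Hilbert functions of such pairs -/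
def Prs (w : σ → Gm T) (X : Set (MvPolynomial σ ℂ)) : AddSubgroup (Gm T → ℤ) :=
  AddSubgroup.closure {h | ∃ (a : GR T) (L K : Submodule ℂ (MvPolynomial σ ℂ)), Pa w X L K ∧
    h = act a (hf w L - hf w K)}

lemma Prs_of {w : σ → Gm T} {X : Set (MvPolynomial σ ℂ)} {L K : Submodule ℂ (MvPolynomial σ ℂ)}
    (h : Pa w X L K) (a : GR T) : act a (hf w L - hf w K) ∈ Prs w X :=
  AddSubgroup.subset_closure ⟨a, L, K, h, rfl⟩

lemma Prs_step [Finite σ] {w : σ → Gm T} (hw : ∀ i, 0 < (w i).2) {X : Set (MvPolynomial σ ℂ)}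
    {f : MvPolynomial σ ℂ} {g : Gm T} (hf' : IsWeightedHomogeneous w f g) {h : Gm T → ℤ}
    (hh : h ∈ Prs w X) : act (1 - cl g) h ∈ Prs w (insert f X) := by
  induction hh using AddSubgroup.closure_induction with
  | mem h hh =>
    obtain ⟨a, L, K, ⟨hKL, hL, hK, sL, sK, hX⟩, rfl⟩ := hh
    have e : act (1 - cl g) (act a (hf w L - hf w K)) =
        act a (hf w L - hf w (img f L ⊔ K)) - act (a * cl g) (hf w (L ⊓ pre f K) - hf w K) := by
      rw [← Module.End.mul_apply, ← map_mul, mul_comm, map_mul, Module.End.mul_apply,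
        hf_step w hw hf' hL hK, map_sub, map_mul, Module.End.mul_apply]
    rw [e]
    refine AddSubgroup.sub_mem _ (Prs_of ⟨sup_le (img_le sL f) hKL, hL,
      Hmg_sup (Hmg_img hf' hL) hK, sL, stb_sup (stb_img sL f) sK, ?_⟩ a)
      (Prs_of ⟨le_inf hKL ?_, Hmg_inf hL (Hmg_pre hf' hK), hK, stb_inf sL (stb_pre sK f), sK, ?_⟩ _)
    · rintro k hk
      rcases Set.mem_insert_iff.1 hk with rfl | hk
      · exact le_sup_left
      · exact (hX k hk).trans le_sup_right
    · intro x hx
      exact stb_mul sK f hx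
    · rintro k hk
      rcases Set.mem_insert_iff.1 hk with rfl | hk
      · rintro _ ⟨x, hx, rfl⟩
        exact hx.2
      · exact (Submodule.map_mono inf_le_left).trans (hX k hk)
  | zero => rw [map_zero]; exact AddSubgroup.zero_mem _
  | add x y _ _ hx hy => rw [map_add]; exact AddSubgroup.add_mem _ hx hy
  | neg x _ hx => rw [map_neg]; exact AddSubgroup.neg_mem _ hx

lemma iter_aux [Finite σ] {w : σ → Gm T} (hw : ∀ i, 0 < (w i).2) {n : Type}
    (f : n → MvPolynomial σ ℂ) (u : n → Gm T) (hf' : ∀ j, IsWeightedHomogeneous w (f j) (u j))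
    (s : Finset n) : act (∏ j ∈ s, (1 - cl (u j))) (hf w ⊤) ∈ Prs w (f '' (s : Set n)) := by
  classical
  induction s using Finset.induction_on with
  | empty =>
    have h := Prs_of (w := w) (X := f '' ((∅ : Finset n) : Set n)) (L := ⊤) (K := ⊥)
      ⟨bot_le, Hmg_top w, Hmg_bot w, fun _ _ _ _ => Submodule.mem_top,
        fun i _ x hx => by rw [(Submodule.mem_bot ℂ).1 hx, mul_zero]; exact Submodule.zero_mem _,
        by simp⟩ 1
    rwa [hf_bot, sub_zero] at h
  | insert i s hi ih =>
    rw [Finset.prod_insert hi, map_mul, Module.End.mul_apply, Finset.coe_insert, Set.image_insert_eq]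
    exact Prs_step hw (hf' i) ih

theorem iter [Finite σ] {w : σ → Gm T} (hw : ∀ i, 0 < (w i).2) {n : Type} [Fintype n]
    (f : n → MvPolynomial σ ℂ) (u : n → Gm T) (hf' : ∀ j, IsWeightedHomogeneous w (f j) (u j)) :
    act (∏ j, (1 - cl (u j))) (hf w ⊤) ∈ Prs w (Set.range f) := by
  have h := iter_aux hw f u hf' Finset.univ
  rwa [Finset.coe_univ, Set.image_univ] at h

/-! ### nilpotent elements modulo `X` -/

lemma img_span {X : Set (MvPolynomial σ ℂ)} {L K : Submodule ℂ (MvPolynomial σ ℂ)}
    (sK : Stb Set.univ K) (hX : ∀ f ∈ X, img f L ≤ K) {y : MvPolynomial σ ℂ}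
    (hy : y ∈ Ideal.span X) {x : MvPolynomial σ ℂ} (hx : x ∈ L) : y * x ∈ K := by
  induction hy using Submodule.span_induction with
  | mem y hy => exact hX y hy ⟨x, hx, rfl⟩
  | zero => rw [zero_mul]; exact K.zero_mem
  | add y z _ _ hy hz => rw [add_mul]; exact K.add_mem hy hz
  | smul a y _ hy => rw [smul_eq_mul, mul_assoc]; exact stb_mul sK a hy

lemma Prs_nil [Finite σ] {w : σ → Gm T} {X : Set (MvPolynomial σ ℂ)}
    {η : MvPolynomial σ ℂ} {g : Gm T} (hη : IsWeightedHomogeneous w η g) {N : ℕ}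
    (hN : η ^ N ∈ Ideal.span X) {h : Gm T → ℤ} (hh : h ∈ Prs w X) : h ∈ Prs w (insert η X) := by
  induction hh using AddSubgroup.closure_induction with
  | mem h hh =>
    obtain ⟨a, L, K, ⟨hKL, hL, hK, sL, sK, hX⟩, rfl⟩ := hh
    have key : ∀ m : ℕ, act a (hf w L - hf w (img (η ^ m) L ⊔ K)) ∈ Prs w (insert η X) := by
      intro m
      induction m with
      | zero =>
        have e : img (η ^ 0) L ⊔ K = L := by
          have : img (η ^ 0) L = L := by
            ext x
            simp [img]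
          rw [this, sup_eq_left.2 hKL]
        rw [e, sub_self, map_zero]
        exact AddSubgroup.zero_mem _
      | succ m ih =>
        have e : act a (hf w L - hf w (img (η ^ (m + 1)) L ⊔ K)) =
            act a (hf w L - hf w (img (η ^ m) L ⊔ K)) +
              act a (hf w (img (η ^ m) L ⊔ K) - hf w (img (η ^ (m + 1)) L ⊔ K)) := by
          rw [← map_add, sub_add_sub_cancel]
        rw [e]
        refine AddSubgroup.add_mem _ ih (Prs_of ⟨?_, Hmg_sup (Hmg_img (hη.pow m) hL) hK,
          Hmg_sup (Hmg_img (hη.pow (m + 1)) hL) hK, stb_sup (stb_img sL _) sK,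
          stb_sup (stb_img sL _) sK, ?_⟩ a)
        · refine sup_le_sup_right ?_ _
          rintro _ ⟨x, hx, rfl⟩
          refine ⟨η * x, stb_mul sL η hx, ?_⟩
          simp only [LinearMap.mulLeft_apply]
          ring
        · rintro k hk _ ⟨x, hx, rfl⟩
          obtain ⟨y, ⟨z, hz, rfl⟩, t, ht, rfl⟩ := Submodule.mem_sup.1 hx
          simp only [LinearMap.mulLeft_apply]
          rw [mul_add]
          refine Submodule.add_mem _ ?_ (Submodule.mem_sup_right (stb_mul sK k ht))
          rcases Set.mem_insert_iff.1 hk with rfl | hk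
          · refine Submodule.mem_sup_left ⟨z, hz, ?_⟩
            simp only [LinearMap.mulLeft_apply]
            ring
          · refine Submodule.mem_sup_right ?_
            rw [mul_left_comm]
            exact stb_mul sK _ (hX k hk ⟨z, hz, rfl⟩)
    have h := key N
    have e : img (η ^ N) L ⊔ K = K := by
      refine sup_eq_right.2 ?_
      rintro _ ⟨x, hx, rfl⟩
      exact img_span sK hX hN hx
    rwa [e] at h
  | zero => exact AddSubgroup.zero_mem _
  | add x y _ _ hx hy => exact AddSubgroup.add_mem _ hx hy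
  | neg x _ hx => exact AddSubgroup.neg_mem _ hx

theorem iter2 [Finite σ] {w : σ → Gm T} (hw : ∀ i, 0 < (w i).2) {n : Type} [Fintype n]
    (f : n → MvPolynomial σ ℂ) (u : n → Gm T) (hf' : ∀ j, IsWeightedHomogeneous w (f j) (u j))
    {η : MvPolynomial σ ℂ} {g : Gm T} (hη : IsWeightedHomogeneous w η g) {N : ℕ}
    (hN : η ^ N ∈ Ideal.span (Set.range f)) :
    act (∏ j, (1 - cl (u j))) (hf w ⊤) ∈ Prs w (insert η (Set.range f)) :=
  Prs_nil hη hN (iter hw f u hf')

/-- the Hilbert series of the ring of polynomials in `η`, `s e` and `p e` -/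
theorem Dd_top {E : Type} [Fintype E] (χ : E → T → ℤ) :
    act (Dd χ Finset.univ * (1 - cl ((0 : T → ℤ), 2))) (hf (wE χ) ⊤) = dl T := by
  rw [← prod_one_sub_hf_top (wE χ)]
  · congr 2
    rw [Fintype.prod_option, Fintype.prod_sum_type, ← Finset.prod_mul_distrib, mul_comm]
    rfl
  · rintro (_ | e | e) <;> simp [wE]

end Vale.Agent.P291.RG
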