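import Vale.Agent.P291.RG.Fg

set_option autoImplicit false

/-! The ideals `J`. -/

namespace Vale.Agent.P291.RG.F

open MvPolynomial

section act
variable {T : Type}

/-- `D` maps `h` into the ideal `I` -/
def InJ (D : GR T) (I : Ideal (GR T)) (h : Gm T → ℤ) : Prop :=
  ∃ a ∈ I, act D h = act a (dl T)

lemma act_mul (a b : GR T) (h : Gm T → ℤ) : act (a * b) h = act a (act b h) := by
  rw [map_mul]; rfl

lemma act_comm (a b : GR T) (h : Gm T → ℤ) : act a (act b h) = act b (act a h) := by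
  rw [← act_mul, mul_comm, act_mul]

lemma act_sub (a b : GR T) (h : Gm T → ℤ) : act (a - b) h = act a h - act b h := by
  rw [map_sub]; rfl

lemma act_add (a b : GR T) (h : Gm T → ℤ) : act (a + b) h = act a h + act b h := by
  rw [map_add]; rfl

lemma act_one (h : Gm T → ℤ) : act 1 h = h := by
  rw [map_one]; rfl

variable {D : GR T} {I I' : Ideal (GR T)} {h h' : Gm T → ℤ}

lemma InJ.add (p : InJ D I h) (q : InJ D I h') : InJ D I (h + h') := by
  obtain ⟨a, ha, e⟩ := p
  obtain ⟨b, hb, e'⟩ := q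
  exact ⟨a + b, add_mem ha hb, by rw [map_add, e, e', act_add]⟩

lemma InJ.sub (p : InJ D I h) (q : InJ D I h') : InJ D I (h - h') := by
  obtain ⟨a, ha, e⟩ := p
  obtain ⟨b, hb, e'⟩ := q
  exact ⟨a - b, sub_mem ha hb, by rw [map_sub, e, e', act_sub]⟩

lemma InJ.act_of (c : GR T) (hc : ∀ a ∈ I, c * a ∈ I') (p : InJ D I h) :
    InJ D I' (act c h) := by
  obtain ⟨a, ha, e⟩ := p
  exact ⟨c * a, hc a ha, by rw [act_comm, e, act_mul]⟩

lemma InJ.act (c : GR T) (p : InJ D I h) : InJ D I (act c h) :=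
  p.act_of c fun a ha => I.mul_mem_left c ha

lemma InJ.of_act {c : GR T} (p : InJ D I (RG.act c h)) : InJ (c * D) I h := by
  obtain ⟨a, ha, e⟩ := p
  exact ⟨a, ha, by rw [act_mul, act_comm, e]⟩

lemma InJ.mono (hI : I ≤ I') (p : InJ D I h) : InJ D I' h := by
  obtain ⟨a, ha, e⟩ := p
  exact ⟨a, hI ha, e⟩

end act

section J
variable {V E T : Type} {src tgt : E → V} {χ : E → T → ℤ} {C : Submodule ℂ (V → ℂ)}
variable [DecidableEq E] {E' : Finset E} {e : E}

lemma cF_insert (F : Finset E) :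
    cF src tgt C (insert e F) = cF src tgt (cF src tgt C {e}) F := by
  ext c
  simp only [mem_cF, Finset.mem_insert, Finset.mem_singleton, forall_eq, forall_eq_or_imp]
  tauto

lemma cF_loop (h : ∀ c ∈ C, c (tgt e) = c (src e)) : cF src tgt C {e} = C := by
  ext c
  simp only [mem_cF, Finset.mem_singleton, forall_eq]
  exact ⟨fun h => h.1, fun hc => ⟨hc, h c hc⟩⟩

lemma finrank_cF [Finite V] {c : V → ℂ} (hc : c ∈ C) (h : c (tgt e) ≠ c (src e)) :
    Module.finrank ℂ (cF src tgt C {e}) + 1 = Module.finrank ℂ C := by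
  set φ : (V → ℂ) →ₗ[ℂ] ℂ := LinearMap.proj (R := ℂ) (φ := fun _ : V => ℂ) (tgt e) -
    LinearMap.proj (src e) with hφ
  have e1 := LinearMap.finrank_range_add_finrank_ker (φ.domRestrict C)
  have e2 : LinearMap.range (φ.domRestrict C) = ⊤ := by
    rw [LinearMap.range_eq_top]
    intro z
    refine ⟨(z / (c (tgt e) - c (src e))) • ⟨c, hc⟩, ?_⟩
    simp only [map_smul, LinearMap.domRestrict_apply, hφ, LinearMap.sub_apply,
      LinearMap.proj_apply, smul_eq_mul]
    exact div_mul_cancel₀ _ (sub_ne_zero.2 h)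
  have e3 : Module.finrank ℂ (LinearMap.ker (φ.domRestrict C)) =
      Module.finrank ℂ (cF src tgt C {e}) := by
    have : (LinearMap.ker (φ.domRestrict C)).map C.subtype = cF src tgt C {e} := by
      ext x
      simp only [Submodule.mem_map, LinearMap.mem_ker, LinearMap.domRestrict_apply,
        Submodule.subtype_apply, Subtype.exists, mem_cF, Finset.mem_singleton, forall_eq, hφ,
        LinearMap.sub_apply, LinearMap.proj_apply, sub_eq_zero]
      constructor
      · rintro ⟨a, ha, h, rfl⟩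
        exact ⟨ha, h⟩
      · rintro ⟨h1, h2⟩
        exact ⟨x, h1, h2, rfl⟩
    rw [← this]
    exact (LinearEquiv.finrank_eq (Submodule.equivMapOfInjective C.subtype
      C.injective_subtype _))
  rw [e2, finrank_top, Module.finrank_self, e3] at e1
  omega

lemma J_loop (he : e ∉ E') (h : ∀ c ∈ C, c (tgt e) = c (src e)) :
    J src tgt χ E' C ≤ J src tgt χ (insert e E') C := by
  refine Ideal.span_le.2 ?_
  rintro _ ⟨F, F', hd, hE, r, hr, ε, rfl⟩
  have h1 : e ∉ F' := fun h => he ((hE e).2 (Or.inr h))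
  refine Ideal.subset_span ⟨insert e F, F', ?_, ?_, r, ?_, ε, rfl⟩
  · exact Finset.disjoint_insert_left.2 ⟨h1, hd⟩
  · intro x
    rw [Finset.mem_insert, Finset.mem_insert, hE x, or_assoc]
  · rw [cF_insert, cF_loop h, hr]

lemma J_contract [Finite V] (he : e ∉ E') {c : V → ℂ} (hc : c ∈ C) (h : c (tgt e) ≠ c (src e))
    {a : GR T} (ha : a ∈ J src tgt χ E' (cF src tgt C {e})) :
    (1 - cl ((0 : T → ℤ), 2)) * a ∈ J src tgt χ (insert e E') C := by
  induction ha using Submodule.span_induction with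
  | mem y hy =>
    obtain ⟨F, F', hd, hE, r, hr, ε, rfl⟩ := hy
    have h1 : e ∉ F' := fun h => he ((hE e).2 (Or.inr h))
    refine Ideal.subset_span ⟨insert e F, F', ?_, ?_, r + 1, ?_, ε, ?_⟩
    · exact Finset.disjoint_insert_left.2 ⟨h1, hd⟩
    · intro x
      rw [Finset.mem_insert, Finset.mem_insert, hE x, or_assoc]
    · rw [cF_insert, ← finrank_cF hc h, ← hr]
      omega
    · rw [pow_succ]; ring
  | zero => simp
  | add x y _ _ hx hy => rw [mul_add]; exact add_mem hx hy
  | smul b x _ hx =>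
    rw [smul_eq_mul, mul_left_comm]
    exact Ideal.mul_mem_left _ _ hx

lemma J_delete (he : e ∉ E') (u : ℤˣ)
    {a : GR T} (ha : a ∈ J src tgt χ E' C) :
    (1 - cl ((u : ℤ) • χ e, 1)) * a ∈ J src tgt χ (insert e E') C := by
  induction ha using Submodule.span_induction with
  | mem y hy =>
    obtain ⟨F, F', hd, hE, r, hr, ε, rfl⟩ := hy
    have h1 : e ∉ F' := fun h => he ((hE e).2 (Or.inr h))
    have h2 : e ∉ F := fun h => he ((hE e).2 (Or.inl h))
    refine Ideal.subset_span ⟨F, insert e F', ?_, ?_, r, hr, Function.update ε e u, ?_⟩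
    · exact Finset.disjoint_insert_right.2 ⟨h2, hd⟩
    · intro x
      rw [Finset.mem_insert, Finset.mem_insert, hE x]
      tauto
    · rw [Finset.prod_insert h1, Function.update_self]
      have : ∏ x ∈ F', (1 - cl (T := T) (((Function.update ε e u x : ℤˣ) : ℤ) • χ x, 1)) =
          ∏ x ∈ F', (1 - cl (((ε x : ℤˣ) : ℤ) • χ x, 1)) := by
        refine Finset.prod_congr rfl fun x hx => ?_
        rw [Function.update_of_ne (by rintro rfl; exact h1 hx)]
      rw [this]
      ring
  | zero => simp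
  | add x y _ _ hx hy => rw [mul_add]; exact add_mem hx hy
  | smul b x _ hx =>
    rw [smul_eq_mul, mul_left_comm]
    exact Ideal.mul_mem_left _ _ hx

lemma J_empty : J src tgt χ ∅ C = ⊤ := by
  rw [Ideal.eq_top_iff_one]
  refine Ideal.subset_span ⟨∅, ∅, Finset.disjoint_empty_left _, by simp, 0, ?_, 1, by simp⟩
  have : cF src tgt C ∅ = C := by
    ext c
    simp [mem_cF]
  rw [this, zero_add]

lemma Dd_insert (he : e ∉ E') :
    Dd χ (insert e E') = ((1 - cl (χ e, 1)) * (1 - cl (-χ e, 1))) * Dd χ E' := by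
  rw [Dd, Finset.prod_insert he, Dd]

end J

end Vale.Agent.P291.RG.F
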