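import Vale.Agent.P291.RG.JJ
import Vale.Agent.P291.RG.HF

set_option autoImplicit false

/-! Lemma 2: deletion and contraction. -/

namespace Vale.Agent.P291.RG.F

open MvPolynomial

lemma wE_pos {E T : Type} (χ : E → T → ℤ) (i : Option (E ⊕ E)) : 0 < (wE χ i).2 := by
  rcases i with _ | i | i <;> simp [wE]

section
variable {σ : Type} {A : Set σ}

lemma FGm_trans {L M K : Submodule ℂ (MvPolynomial σ ℂ)} (h : FGm A L M) (h' : FGm A M K)
    (hle : M ≤ L) : FGm A L K := by
  classical
  obtain ⟨G, hG, h⟩ := h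
  obtain ⟨G', hG', h'⟩ := h'
  refine ⟨G ∪ G', ?_, ?_⟩
  · intro g hg
    rcases Finset.mem_union.1 hg with hg | hg
    · exact hG g hg
    · exact hle (hG' g hg)
  · refine h.trans (sup_le (h'.trans (sup_le le_sup_left ?_)) ?_)
    · refine (gsp_le Stb_gsp fun g hg => subset_gsp A ?_).trans le_sup_right
      exact Finset.mem_coe.2 (Finset.mem_union_right _ hg)
    · refine (gsp_le Stb_gsp fun g hg => subset_gsp A ?_).trans le_sup_right
      exact Finset.mem_coe.2 (Finset.mem_union_left _ hg)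

lemma img_mono {f : MvPolynomial σ ℂ} {L L' : Submodule ℂ (MvPolynomial σ ℂ)} (h : L ≤ L') :
    img f L ≤ img f L' := Submodule.map_mono h

lemma img_le {f : MvPolynomial σ ℂ} {L L' : Submodule ℂ (MvPolynomial σ ℂ)} :
    img f L ≤ L' ↔ ∀ x ∈ L, f * x ∈ L' := by
  constructor
  · intro h x hx
    exact h ⟨x, hx, rfl⟩
  · rintro h _ ⟨x, hx, rfl⟩
    exact h x hx

end

section chain
variable {σ : Type} (s p : MvPolynomial σ ℂ) (F0 F1 : Submodule ℂ (MvPolynomial σ ℂ))

/-- the filtration -/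
noncomputable def Mc : ℕ → Submodule ℂ (MvPolynomial σ ℂ)
  | 0 => F1
  | n + 1 => F0 ⊔ img s (Mc n)

end chain

section chain
variable {σ : Type} [Finite σ] {A : Set σ} {s p : MvPolynomial σ ℂ}
  {F0 F1 L : Submodule ℂ (MvPolynomial σ ℂ)}

/-- finite generation of `κ₊` -/
lemma fg_kap (h0 : Stb A F0) (h1 : Stb A F1) (hL : Stb A L) (h10 : F1 ≤ F0) (h0L : F0 ≤ L)
    (hs1 : img s F1 ≤ F0) (hL' : L ≤ ⨆ n, Mc s F0 F1 n) (fg : FGm A F0 F1) :
    FGm A (L ⊓ pre s F0) F1 := by
  have hsucc : ∀ n, Mc s F0 F1 n ≤ Mc s F0 F1 (n + 1) := by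
    intro n
    induction n with
    | zero => exact h10.trans le_sup_left
    | succ n ih => exact sup_le_sup_left (img_mono ih) _
  have hmono : Monotone (Mc s F0 F1) := monotone_nat_of_le_succ hsucc
  have hst : ∀ n, Stb A (Mc s F0 F1 n) := by
    intro n
    induction n with
    | zero => exact h1
    | succ n ih => exact Stb_sup h0 (Stb_img s ih)
  have hs : ∀ n, ∀ x ∈ Mc s F0 F1 n, s * x ∈ Mc s F0 F1 (n + 1) := fun n x hx =>
    Submodule.mem_sup_right ⟨x, hx, rfl⟩
  have hsk : ∀ k n, ∀ x ∈ Mc s F0 F1 n, s ^ k * x ∈ Mc s F0 F1 (n + k) := by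
    intro k
    induction k with
    | zero => intro n x hx; simpa using hx
    | succ k ih =>
      intro n x hx
      rw [pow_succ', mul_assoc]
      exact hs _ _ (ih n x hx)
  have hM1 : Mc s F0 F1 1 = F0 := by
    show F0 ⊔ img s F1 = F0
    exact sup_eq_left.2 hs1
  -- the kernels
  have hker : Monotone fun k => F0 ⊓ pre (s ^ k) (Mc s F0 F1 k) := by
    refine monotone_nat_of_le_succ fun k x hx => ⟨hx.1, ?_⟩
    have e : s ^ (k + 1) * x ∈ Mc s F0 F1 (k + 1) := by
      rw [pow_succ', mul_assoc]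
      exact hs _ _ hx.2
    exact e
  obtain ⟨n0, hn0⟩ := acc h0 h1 fg (fun k => F0 ⊓ pre (s ^ k) (Mc s F0 F1 k)) hker
    (fun k => Stb_inf h0 (Stb_pre _ (hst k)))
    (fun k => le_inf h10 fun x hx => by
      have := hsk k 0 x hx
      rwa [zero_add] at this)
    (fun k => inf_le_left)
  -- surjectivity
  have hA : ∀ k, Mc s F0 F1 (k + 1) ≤ Mc s F0 F1 k ⊔ img (s ^ k) F0 := by
    intro k
    induction k with
    | zero =>
      rw [hM1]
      refine le_trans ?_ le_sup_right
      intro x hx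
      exact ⟨x, hx, by simp⟩
    | succ k ih =>
      show F0 ⊔ img s (Mc s F0 F1 (k + 1)) ≤ _
      refine sup_le ?_ ?_
      · exact (hM1.ge.trans (hmono (Nat.le_add_left 1 k))).trans le_sup_left
      · rw [img_le]
        intro x hx
        obtain ⟨a, ha, b, ⟨c, hc, rfl⟩, rfl⟩ := Submodule.mem_sup.1 (ih hx)
        rw [mul_add]
        refine Submodule.add_mem_sup (hs _ _ ha) ⟨c, hc, ?_⟩
        simp only [LinearMap.mulLeft_apply]
        ring
  -- injectivity
  have hB : ∀ k, n0 ≤ k → ∀ y ∈ Mc s F0 F1 (k + 1), s * y ∈ Mc s F0 F1 (k + 1) →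
      y ∈ Mc s F0 F1 k := by
    intro k hk y hy hsy
    obtain ⟨m, hm, b, ⟨x, hx, rfl⟩, rfl⟩ := Submodule.mem_sup.1 (hA k hy)
    simp only [LinearMap.mulLeft_apply] at hsy ⊢
    have e1 : s ^ (k + 1) * x ∈ Mc s F0 F1 (k + 1) := by
      have := sub_mem hsy (hs k m hm)
      have e : s * (m + s ^ k * x) - s * m = s ^ (k + 1) * x := by ring
      rwa [e] at this
    have e2 : x ∈ F0 ⊓ pre (s ^ k) (Mc s F0 F1 k) :=
      hker hk (hn0 (k + 1) ⟨hx, e1⟩)
    exact add_mem hm e2.2
  have hC : L ⊓ pre s F0 ≤ Mc s F0 F1 n0 := by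
    intro x hx
    have h2 : ∀ n, x ∈ Mc s F0 F1 (n0 + n) → x ∈ Mc s F0 F1 n0 := by
      intro n
      induction n with
      | zero => exact id
      | succ n ih =>
        intro hn
        refine ih (hB (n0 + n) (by omega) x hn ?_)
        have : F0 ≤ Mc s F0 F1 (n0 + n + 1) := le_sup_left
        exact this hx.2
    obtain ⟨n, hn⟩ := (Submodule.mem_iSup_of_directed _ hmono.directed_le).1 (hL' hx.1)
    exact h2 n (hmono (by omega) hn)
  -- finite generation of the steps
  have hD : ∀ k, FGm A (Mc s F0 F1 k) F1 := by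
    intro k
    induction k with
    | zero => exact ⟨∅, by simp, le_sup_left⟩
    | succ k ih =>
      refine FGm_trans ?_ ih (hsucc k)
      classical
      obtain ⟨G, hG, hG'⟩ := fg
      refine ⟨G.image fun g => s ^ k * g, ?_, ?_⟩
      · intro y hy
        obtain ⟨g, hg, rfl⟩ := Finset.mem_image.1 hy
        have := hsk k 1 g (by rw [hM1]; exact hG g hg)
        rwa [add_comm] at this
      · refine (hA k).trans (sup_le le_sup_left ?_)
        rw [img_le]
        intro x hx
        obtain ⟨a, ha, b, hb, rfl⟩ := Submodule.mem_sup.1 (hG' hx)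
        rw [mul_add]
        refine Submodule.add_mem_sup ?_ ?_
        · have := hsk k 0 a ha
          rwa [zero_add] at this
        · have h2 : gsp A (G : Set (MvPolynomial σ ℂ)) ≤
              pre (s ^ k) (gsp A ((G.image fun g => s ^ k * g : Finset _) : Set _)) := by
            refine gsp_le (Stb_pre _ Stb_gsp) fun g hg => ?_
            exact subset_gsp A (Finset.mem_coe.2 (Finset.mem_image_of_mem _ hg))
          exact h2 hb
  have hpre : Stb A (L ⊓ pre s F0) := Stb_inf hL (Stb_pre s h0)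
  exact FGm_of_le (hst n0) hpre h1 (hD n0) hC

end chain

end Vale.Agent.P291.RG.F
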