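import Vale.Agent.P291.RG.Lem2

set_option autoImplicit false

/-! Lemma 2: the induction. -/

namespace Vale.Agent.P291.RG.F

open MvPolynomial

variable {V E T : Type} [DecidableEq E] {src tgt : E → V} {χ : E → T → ℤ}

/-- the moment relations -/
def Rel (src tgt : E → V) (E' : Finset E) (C : Submodule ℂ (V → ℂ))
    (L K : Submodule ℂ (Ph E)) : Prop :=
  ∀ c ∈ C, ∀ x ∈ L, (∑ e ∈ E', (c (tgt e) - c (src e)) • zz e) * x ∈ K

/-- admissible pairs -/
structure Adm (src tgt : E → V) (χ : E → T → ℤ) (E' : Finset E) (C : Submodule ℂ (V → ℂ))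
    (L K : Submodule ℂ (Ph E)) : Prop where
  le : K ≤ L
  hL : Hmg (wE χ) L
  hK : Hmg (wE χ) K
  sL : Stb (vr E') L
  sK : Stb (vr E') K
  fg : FGm (vr E') L K
  rel : Rel src tgt E' C L K

/-- the conclusion of Lemma 2 -/
def Cl (src tgt : E → V) (χ : E → T → ℤ) (E' : Finset E) (C : Submodule ℂ (V → ℂ)) : Prop :=
  ∀ L K : Submodule ℂ (Ph E), Adm src tgt χ E' C L K →
    InJ (Dd χ E') (J src tgt χ E' C) (hf (wE χ) L - hf (wE χ) K)

lemma vr_insert (e : E) (E' : Finset E) :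
    vr (insert e E') = vr E' ∪ {some (.inl e), some (.inr e)} := by
  ext i
  simp only [vr, Set.mem_setOf_eq, Finset.mem_insert, Set.mem_union, Set.mem_insert_iff,
    Set.mem_singleton_iff]
  constructor
  · rintro ⟨x, rfl | hx, h⟩
    · exact Or.inr h
    · exact Or.inl ⟨x, hx, h⟩
  · rintro (⟨x, hx, h⟩ | h)
    · exact ⟨x, Or.inr hx, h⟩
    · exact ⟨e, Or.inl rfl, h⟩

lemma vr_sub (e : E) (E' : Finset E) : vr E' ⊆ vr (insert e E') := by
  rw [vr_insert]; exact Set.subset_union_left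

lemma inl_mem_vr (e : E) (E' : Finset E) : some (.inl e) ∈ vr (insert e E') :=
  ⟨e, Finset.mem_insert_self _ _, Or.inl rfl⟩

lemma inr_mem_vr (e : E) (E' : Finset E) : some (.inr e) ∈ vr (insert e E') :=
  ⟨e, Finset.mem_insert_self _ _, Or.inr rfl⟩

/-- the case without edges -/
lemma cl_empty (C : Submodule ℂ (V → ℂ)) : Cl src tgt χ ∅ C := by
  intro L K h
  obtain ⟨G, hG, hGh, hG'⟩ := FGm_homog h.hL h.fg
  classical
  choose! wt hwt using hGh
  have hvr : vr (E := E) ∅ = ∅ := by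
    ext i; simp [vr]
  have hmon : ∀ r ∈ mon (vr (E := E) ∅), r = 1 := by
    intro r hr
    rw [hvr, mon, Set.image_empty, Submonoid.closure_empty] at hr
    exact hr
  have e2 : ∀ γ, γ ∉ G.image wt → ∀ y ∈ gsp (vr (E := E) ∅) (G : Set (Ph E)),
      weightedHomogeneousComponent (wE χ) γ y = 0 := by
    intro γ hγ y hy
    induction hy using Submodule.span_induction with
    | mem z hz =>
      obtain ⟨r, hr, g, hg, rfl⟩ := hz
      rw [hmon r hr, one_mul]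
      refine IsWeightedHomogeneous.weightedHomogeneousComponent_ne _ (hwt g hg) ?_
      rintro rfl
      exact hγ (Finset.mem_image_of_mem _ hg)
    | zero => simp
    | add a b _ _ ha hb => rw [map_add, ha, hb, add_zero]
    | smul c a _ ha => rw [map_smul, ha, smul_zero]
  have e1 : ∀ γ, γ ∉ G.image wt → (hf (wE χ) L - hf (wE χ) K) γ = 0 := by
    intro γ hγ
    have : L ⊓ weightedHomogeneousSubmodule ℂ (wE χ) γ =
        K ⊓ weightedHomogeneousSubmodule ℂ (wE χ) γ := by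
      apply le_antisymm
      · rintro x ⟨hx, hx'⟩
        refine ⟨?_, hx'⟩
        obtain ⟨k, hk, y, hy, hxy⟩ := Submodule.mem_sup.1 (hG' hx)
        have e3 : weightedHomogeneousComponent (wE χ) γ x = x :=
          IsWeightedHomogeneous.weightedHomogeneousComponent_same hx'
        rw [← e3, ← hxy, map_add, e2 γ hγ y hy, add_zero]
        exact h.hK k hk γ
      · exact inf_le_inf_right _ h.le
    rw [Pi.sub_apply, sub_eq_zero]
    exact congrArg (fun M : Submodule ℂ (Ph E) => (Module.finrank ℂ M : ℤ)) this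
  refine ⟨AddMonoidAlgebra.ofCoeff (Finsupp.onFinset (G.image wt) (hf (wE χ) L - hf (wE χ) K)
    fun γ hγ => ?_), ?_, ?_⟩
  · by_contra h'
    exact hγ (e1 γ h')
  · rw [J_empty]; trivial
  · rw [Dd, Finset.prod_empty, act_one]
    funext γ
    rw [act_dl]
    rfl

/-- the identity of a loop -/
lemma loop_id [Finite E] {D : GR T} {I : Ideal (GR T)} {f f' : Ph E} {g g' : Gm T}
    (hf₁ : IsWeightedHomogeneous (wE χ) f g) (hf₂ : IsWeightedHomogeneous (wE χ) f' g')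
    {L K : Submodule ℂ (Ph E)} (hKL : K ≤ L) (hL : Hmg (wE χ) L) (hK : Hmg (wE χ) K)
    (s1 : ∀ x ∈ L, f * x ∈ L) (s2 : ∀ x ∈ L, f' * x ∈ L) (s3 : ∀ x ∈ K, f * x ∈ K)
    (s4 : ∀ x ∈ K, f' * x ∈ K)
    (h : ∀ L' K' : Submodule ℂ (Ph E), K ≤ K' → K' ≤ L' → L' ≤ L → Hmg (wE χ) L' →
      Hmg (wE χ) K' → (∀ x ∈ L', f * x ∈ K') → (∀ x ∈ L', f' * x ∈ K') →
      (∀ A : Set (Option (E ⊕ E)), Stb A L → Stb A K → Stb A L' ∧ Stb A K') →
      InJ D I (hf (wE χ) L' - hf (wE χ) K')) :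
    InJ ((1 - cl g) * (1 - cl g') * D) I (hf (wE χ) L - hf (wE χ) K) := by
  -- one step with `f'`
  have step : ∀ L₁ K₁ : Submodule ℂ (Ph E), K ≤ K₁ → K₁ ≤ L₁ → L₁ ≤ L → Hmg (wE χ) L₁ →
      Hmg (wE χ) K₁ → (∀ x ∈ L₁, f * x ∈ K₁) → (∀ x ∈ L₁, f' * x ∈ L₁) →
      (∀ x ∈ K₁, f' * x ∈ K₁) →
      (∀ A : Set (Option (E ⊕ E)), Stb A L → Stb A K → Stb A L₁ ∧ Stb A K₁) →
      InJ D I (act (1 - cl g') (hf (wE χ) L₁ - hf (wE χ) K₁)) := by
    intro L₁ K₁ a1 a2 a3 a4 a5 a6 a7 a8 a9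
    rw [hf_step (wE χ) (wE_pos χ) hf₂ a4 a5]
    refine InJ.sub ?_ (InJ.act _ ?_)
    · refine h _ _ (a1.trans le_sup_right) (sup_le (img_le.2 a7) a2) a3 a4
        (Hmg_sup (Hmg_img hf₂ a4) a5) (fun x hx => Submodule.mem_sup_right (a6 x hx))
        (fun x hx => Submodule.mem_sup_left ⟨x, hx, rfl⟩) (fun A u v => ?_)
      obtain ⟨b1, b2⟩ := a9 A u v
      exact ⟨b1, Stb_sup (Stb_img _ b1) b2⟩
    · refine h _ _ a1 (le_inf a2 fun x hx => a8 x hx) (inf_le_left.trans a3)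
        (Hmg_inf a4 (Hmg_pre hf₂ a5)) a5 (fun x hx => a6 x hx.1) (fun x hx => hx.2)
        (fun A u v => ?_)
      obtain ⟨b1, b2⟩ := a9 A u v
      exact ⟨Stb_inf b1 (Stb_pre _ b2), b2⟩
  rw [mul_assoc]
  refine InJ.of_act ?_
  refine InJ.of_act ?_
  rw [hf_step (wE χ) (wE_pos χ) hf₁ hL hK, map_sub, act_comm (1 - cl g')]
  refine InJ.sub ?_ (InJ.act _ ?_)
  · refine step _ _ le_sup_right (sup_le (img_le.2 s1) hKL) le_rfl hL
      (Hmg_sup (Hmg_img hf₁ hL) hK) (fun x hx => Submodule.mem_sup_left ⟨x, hx, rfl⟩) s2 ?_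
      (fun A u v => ⟨u, Stb_sup (Stb_img _ u) v⟩)
    intro x hx
    obtain ⟨_, ⟨a, ha, rfl⟩, b, hb, rfl⟩ := Submodule.mem_sup.1 hx
    rw [mul_add]
    refine Submodule.add_mem_sup ⟨f' * a, s2 a ha, ?_⟩ (s4 b hb)
    simp only [LinearMap.mulLeft_apply]
    ring
  · refine step _ _ le_rfl (le_inf hKL fun x hx => s3 x hx) inf_le_left
      (Hmg_inf hL (Hmg_pre hf₁ hK)) hK (fun x hx => hx.2) ?_ s4
      (fun A u v => ⟨Stb_inf u (Stb_pre _ v), v⟩)
    intro x hx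
    refine ⟨s2 x hx.1, ?_⟩
    have : f' * (f * x) ∈ K := s4 _ hx.2
    have e : f' * (f * x) = f * (f' * x) := by ring
    rw [e] at this
    exact this

/-- the case of an edge whose ends are not separated by `C` -/
lemma cl_loop [Finite E] {e : E} {E' : Finset E} (he : e ∉ E') {C : Submodule ℂ (V → ℂ)}
    (hC : ∀ c ∈ C, c (tgt e) = c (src e)) (ih : Cl src tgt χ E' C) :
    Cl src tgt χ (insert e E') C := by
  intro L K h
  rw [Dd_insert he]
  refine loop_id (f := X (some (.inl e))) (f' := X (some (.inr e)))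
    (isWeightedHomogeneous_X ℂ _ _) (isWeightedHomogeneous_X ℂ _ _) h.le h.hL h.hK
    (h.sL _ (inl_mem_vr e E')) (h.sL _ (inr_mem_vr e E')) (h.sK _ (inl_mem_vr e E'))
    (h.sK _ (inr_mem_vr e E')) ?_
  intro L' K' a1 a2 a3 a4 a5 a6 a7 a8
  obtain ⟨b1, b2⟩ := a8 _ h.sL h.sK
  refine InJ.mono (J_loop he hC) (ih L' K' ⟨a2, a4, a5, Stb_mono (vr_sub e E') b1,
    Stb_mono (vr_sub e E') b2, ?_, ?_⟩)
  · refine FGm_drop a2 (Stb_mono (vr_sub e E') b2) (B := vr (insert e E'))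
      (D := {some (.inl e), some (.inr e)}) (vr_insert e E').le ?_
      (FGm_right (FGm_of_le h.sL b1 h.sK h.fg a3) a1)
    rintro i (rfl | rfl) x hx
    · exact a6 x hx
    · exact a7 x hx
  · intro c hc x hx
    have := h.rel c hc x (a3 hx)
    rw [Finset.sum_insert he, hC c hc, sub_self, zero_smul, zero_add] at this
    exact a1 this

end Vale.Agent.P291.RG.F
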