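import Vale.Agent.P291.RG.Defs

set_option autoImplicit false

/-! The real moment map (helper827). -/

namespace Vale.Agent.P291.RG

open Matrix Vale.Agent.P291.Q

noncomputable section

/-- the real moment map, evaluated at `ξ` -/
def muR {D : QData} (x : Pt D) (ξ : (i : D.I) → Matrix (Fin (D.v i)) (Fin (D.v i)) ℂ) : ℂ :=
  ∑ a, ((x.X a)ᴴ * (ξ (D.tgt a) * x.X a - x.X a * ξ (D.src a))).trace +
    ∑ a, ((x.X' a)ᴴ * (ξ (D.src a) * x.X' a - x.X' a * ξ (D.tgt a))).trace +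
    ∑ i, (((x.Y' i)ᴴ * (ξ i * x.Y' i)).trace - ((x.Y i)ᴴ * (x.Y i * ξ i)).trace)

end

end Vale.Agent.P291.RG
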