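import Vale.Agent.P291.RG.Base

set_option autoImplicit false

/-! The Hilbert function of the polynomial ring. -/

namespace Vale.Agent.P291.RG.Tp

open MvPolynomial

section
variable {σ T : Type} [Finite σ] (w : σ → Gm T)

/-- exponents of the monomials of weight `γ` in the variables in `s` -/
def Mo (s : Finset σ) (γ : Gm T) : Set (σ →₀ ℕ) :=
  {m | (∀ i, i ∉ s → m i = 0) ∧ Finsupp.weight w m = γ}

variable {w}

omit [Finite σ] in
lemma le_weight (hw : ∀ i, 0 < (w i).2) (m : σ →₀ ℕ) (i : σ) :
    (m i : ℤ) ≤ (Finsupp.weight w m).2 := by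
  classical
  have h : (Finsupp.weight w m).2 = ∑ i ∈ m.support, (m i : ℤ) * (w i).2 := by
    rw [Finsupp.weight_apply, Finsupp.sum, Prod.snd_sum]
    refine Finset.sum_congr rfl fun j _ => ?_
    simp
  rw [h]
  by_cases hi : i ∈ m.support
  · have h1 : (m i : ℤ) ≤ (m i : ℤ) * (w i).2 := by
      have := hw i
      nlinarith [Int.natCast_nonneg (m i)]
    refine h1.trans (Finset.single_le_sum (f := fun i => (m i : ℤ) * (w i).2) (fun j _ => ?_) hi)
    have := hw j
    positivity
  · have h1 : m i = 0 := by simpa using hi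
    rw [h1]
    refine (Finset.sum_nonneg fun j _ => ?_)
    have := hw j
    positivity

lemma finite_Mo (hw : ∀ i, 0 < (w i).2) (s : Finset σ) (γ : Gm T) : (Mo w s γ).Finite := by
  classical
  have h : Mo w s γ ⊆ Set.Icc 0 (Finsupp.equivFunOnFinite.symm fun _ => γ.2.toNat) := by
    rintro m ⟨_, hm⟩
    refine ⟨zero_le, fun i => ?_⟩
    have := le_weight hw m i
    rw [hm] at this
    simp only [Finsupp.equivFunOnFinite_symm_apply_apply]
    omega
  exact (Set.finite_Icc _ _).subset h

omit [Finite σ] in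
lemma Mo_insert [DecidableEq σ] (s : Finset σ) (i : σ) (γ : Gm T) :
    Mo w (insert i s) γ =
      Mo w s γ ∪ (fun m => m + Finsupp.single i 1) '' Mo w (insert i s) (γ - w i) := by
  ext m
  simp only [Mo, Set.mem_ofPred_eq, Set.mem_union, Set.mem_image, Finset.mem_insert, not_or]
  constructor
  · rintro ⟨h1, h2⟩
    by_cases h : m i = 0
    · left
      refine ⟨fun j hj => ?_, h2⟩
      by_cases e : j = i
      · rw [e, h]
      · exact h1 j ⟨e, hj⟩
    · right
      have e : m - Finsupp.single i 1 + Finsupp.single i 1 = m := by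
        refine tsub_add_cancel_of_le ?_
        rw [Finsupp.single_le_iff]
        omega
      refine ⟨m - Finsupp.single i 1, ⟨fun j hj => ?_, ?_⟩, e⟩
      · rw [Finsupp.tsub_apply, h1 j hj, zero_tsub]
      · rw [eq_sub_iff_add_eq, ← h2]
        conv_rhs => rw [← e]
        rw [map_add, Finsupp.weight_single, one_smul]
  · rintro (⟨h1, h2⟩ | ⟨m', ⟨h1, h2⟩, rfl⟩)
    · exact ⟨fun j hj => h1 j hj.2, h2⟩
    · refine ⟨fun j hj => ?_, ?_⟩
      · rw [Finsupp.add_apply, h1 j hj, Finsupp.single_eq_of_ne hj.1, add_zero]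
      · rw [map_add, h2, Finsupp.weight_single, one_smul, sub_add_cancel]

lemma ncard_Mo_insert [DecidableEq σ] (hw : ∀ i, 0 < (w i).2) {s : Finset σ} {i : σ} (hi : i ∉ s)
    (γ : Gm T) : (Mo w (insert i s) γ).ncard =
      (Mo w s γ).ncard + (Mo w (insert i s) (γ - w i)).ncard := by
  rw [Mo_insert s i, Set.ncard_union_eq ?_ (finite_Mo hw _ _) ((finite_Mo hw _ _).image _),
    Set.ncard_image_of_injective _ (add_left_injective _)]
  rw [Set.disjoint_left]
  rintro _ ⟨h1, _⟩ ⟨m, _, rfl⟩
  have := h1 i hi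
  simp at this

/-- the number of monomials -/
noncomputable def hm (w : σ → Gm T) (s : Finset σ) : Gm T → ℤ := fun γ => ((Mo w s γ).ncard : ℤ)

lemma act_hm [DecidableEq σ] (hw : ∀ i, 0 < (w i).2) (s : Finset σ) :
    act (∏ i ∈ s, (1 - cl (w i))) (hm w s) = dl T := by
  classical
  induction s using Finset.induction_on with
  | empty =>
    ext γ
    rw [Finset.prod_empty, map_one, Module.End.one_apply]
    have e : Mo w (∅ : Finset σ) γ = if γ = 0 then {0} else ∅ := by
      ext m
      simp only [Mo, Finset.notMem_empty, not_false_eq_true, forall_const, Set.mem_ofPred_eq]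
      constructor
      · rintro ⟨h1, h2⟩
        have h3 : m = 0 := by ext i; simp [h1 i]
        rw [h3, map_zero] at h2
        rw [← h2, h3]
        simp
      · intro h
        split_ifs at h with h0
        · rw [Set.mem_singleton_iff] at h
          rw [h, h0]
          simp
        · exact absurd h (Set.notMem_empty _)
    rw [hm, e, dl, Pi.single_apply]
    split_ifs <;> simp
  | insert i s hi ih =>
    rw [Finset.prod_insert hi, mul_comm, map_mul, Module.End.mul_apply]
    have e : act (1 - cl (w i)) (hm w (insert i s)) = hm w s := by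
      ext γ
      rw [map_sub, map_one, LinearMap.sub_apply, Module.End.one_apply, Pi.sub_apply, act_cl]
      simp only [hm]
      rw [ncard_Mo_insert hw hi γ]
      push_cast
      ring
    rw [e, ih]

lemma finrank_whs (hw : ∀ i, 0 < (w i).2) [Fintype σ] (γ : Gm T) :
    Module.finrank ℂ ↥(weightedHomogeneousSubmodule ℂ w γ) = (Mo w Finset.univ γ).ncard := by
  have e : Mo w Finset.univ γ = {d | Finsupp.weight w d = γ} := by
    ext m
    simp [Mo]
  have hfin : Finite {d : σ →₀ ℕ | Finsupp.weight w d = γ} := by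
    rw [← e]
    exact finite_Mo hw _ _
  have := Fintype.ofFinite {d : σ →₀ ℕ | Finsupp.weight w d = γ}
  rw [e, weightedHomogeneousSubmodule_eq_finsupp_supported,
    LinearEquiv.finrank_eq (AddMonoidAlgebra.supportedEquivFinsupp _), Module.finrank_finsupp_self,
    ← Nat.card_eq_fintype_card]
  rfl

end


theorem prod_one_sub_hf_top {σ T : Type} [Fintype σ] (w : σ → Gm T) (hw : ∀ i, 0 < (w i).2) :
    act (∏ i, (1 - cl (w i))) (hf w ⊤) = dl T := by
  classical
  have e : hf w ⊤ = Tp.hm w Finset.univ := by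
    ext γ
    rw [hf, Tp.hm, top_inf_eq, Tp.finrank_whs hw]
  rw [e, Tp.act_hm hw]

/-- for the variables `η`, `s e`, `p e` -/
theorem act_top_Ph {E T : Type} [Fintype E] (χ : E → T → ℤ) :
    act (Dd χ Finset.univ * (1 - cl ((0 : T → ℤ), 2))) (hf (wE χ) ⊤) = dl T := by
  have h := prod_one_sub_hf_top (wE χ) (by
    rintro (_ | _ | _) <;> simp [wE])
  rw [← h]
  congr 2
  rw [Fintype.prod_option, Fintype.prod_sum_type, Dd, Finset.prod_mul_distrib]
  simp only [wE]
  ring

end Vale.Agent.P291.RG.Tp
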